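import Vale.Agent.P155.H878.Q1Stmt

/-!
# P155, literal Q1, TL (B1): integer sequences with steps at most one
-/

namespace Vale.Agent.P155.TL

open Set Topology Filter

/-- discrete intermediate value theorem -/
theorem step {f : ℤ → ℤ} (hf : ∀ i, |f (i + 1) - f i| ≤ 1) {n n' X : ℤ} (hn : n ≤ n')
    (h : f n ≤ X) (h' : X < f n') : ∃ i, n ≤ i ∧ i + 1 ≤ n' ∧ f i = X ∧ f (i + 1) = X + 1 := by
  obtain ⟨m, rfl⟩ := Int.le.dest hn
  clear hn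
  induction m with
  | zero => simp at h'; omega
  | succ m ih =>
    by_cases h2 : X < f (n + m)
    · obtain ⟨i, h3, h4, h5⟩ := ih h2
      exact ⟨i, h3, by push_cast; omega, h5⟩
    · rw [not_lt] at h2
      have h3 := hf (n + m)
      rw [abs_le] at h3
      push_cast at h'
      rw [← add_assoc] at h'
      exact ⟨n + m, by omega, by push_cast; omega, by omega, by omega⟩

/-- piecewise linear interpolation -/
noncomputable def ip (f : ℤ → ℤ) (x : ℝ) : ℝ :=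
  f ⌊x⌋ + (x - ⌊x⌋) * ((f (⌊x⌋ + 1) : ℝ) - f ⌊x⌋)

theorem ip_int (f : ℤ → ℤ) (n : ℤ) : ip f n = f n := by
  simp [ip]

theorem ip_neg (f : ℤ → ℤ) (x : ℝ) : ip (fun i => -f i) x = -ip f x := by
  simp only [ip]
  push_cast
  ring

theorem ip_mem {f : ℤ → ℤ} {x : ℝ} {c : ℝ} (h0 : c ≤ f ⌊x⌋) (h1 : c ≤ f (⌊x⌋ + 1)) :
    c ≤ ip f x := by
  have h2 := Int.floor_le x
  have h3 := Int.lt_floor_add_one x
  unfold ip
  nlinarith

theorem ip_lt {f : ℤ → ℤ} (hf : ∀ i, |f (i + 1) - f i| ≤ 1) {x : ℝ} {X : ℤ} (h : ip f x < X) :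
    f ⌊x⌋ ≤ X ∧ f (⌊x⌋ + 1) ≤ X ∧ (x = ⌊x⌋ → f ⌊x⌋ < X) := by
  have h2 := Int.floor_le x
  have h3 := Int.lt_floor_add_one x
  have h4 := hf ⌊x⌋
  rw [abs_le] at h4
  have h5 : f ⌊x⌋ < X ∨ f (⌊x⌋ + 1) < X := by
    by_contra hcon
    push Not at hcon
    have := ip_mem (c := (X : ℝ)) (f := f) (x := x) (by exact_mod_cast hcon.1)
      (by exact_mod_cast hcon.2)
    linarith
  refine ⟨by omega, by omega, fun hx => ?_⟩
  unfold ip at h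
  rw [← hx] at h
  have h6 : (f ⌊x⌋ : ℝ) < X := by
    have : x - x = 0 := sub_self x
    rw [this] at h
    linarith
  exact_mod_cast h6

theorem gt_ip {f : ℤ → ℤ} (hf : ∀ i, |f (i + 1) - f i| ≤ 1) {x : ℝ} {X : ℤ} (h : X < ip f x) :
    X ≤ f ⌊x⌋ ∧ X ≤ f (⌊x⌋ + 1) ∧ (x = ⌊x⌋ → X < f ⌊x⌋) := by
  have h1 : ∀ i, |(fun i => -f i) (i + 1) - (fun i => -f i) i| ≤ 1 := by
    intro i
    have := hf i
    simp only
    rw [abs_le] at this ⊢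
    omega
  have h2 : ip (fun i => -f i) x < ((-X : ℤ) : ℝ) := by
    rw [ip_neg]
    push_cast
    linarith
  obtain ⟨h3, h4, h5⟩ := ip_lt h1 h2
  exact ⟨by omega, by omega, fun hx => by have := h5 hx; omega⟩

/-- an interpolated path which crosses a column contains an edge of this column -/
theorem cross {f : ℤ → ℤ} (hf : ∀ i, |f (i + 1) - f i| ≤ 1) {x x' : ℝ} (hx : x ≤ x') {X : ℤ}
    (h : ip f x < X) (h' : (X : ℝ) + 1 < ip f x') :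
    ∃ i : ℤ, x ≤ i ∧ (i : ℝ) + 1 ≤ x' ∧ f i = X ∧ f (i + 1) = X + 1 := by
  obtain ⟨a1, a2, a3⟩ := ip_lt hf h
  obtain ⟨b1, b2, b3⟩ := gt_ip hf (X := X + 1) (by push_cast; exact h')
  have h1 : ∃ n : ℤ, x ≤ n ∧ f n ≤ X ∧ ∀ m : ℤ, x ≤ m → n ≤ m := by
    refine ⟨⌈x⌉, Int.le_ceil x, ?_, fun m hm => Int.ceil_le.2 hm⟩
    rcases (Int.floor_le x).lt_or_eq with h5 | h5
    · have : ⌈x⌉ = ⌊x⌋ + 1 := by
        rw [Int.ceil_eq_iff]
        push_cast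
        constructor
        · linarith
        · exact (Int.lt_floor_add_one x).le
      rw [this]
      exact a2
    · have : ⌈x⌉ = ⌊x⌋ := by
        rw [Int.ceil_eq_iff]
        constructor
        · linarith
        · exact h5.ge
      rw [this]
      exact a1
  obtain ⟨n, hn1, hn2, hn3⟩ := h1
  have hlt : n ≤ ⌊x'⌋ := by
    by_contra hcon
    rw [not_le] at hcon
    have h6 : ⌊x⌋ = ⌊x'⌋ := by
      apply le_antisymm (Int.floor_le_floor hx)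
      by_contra h7
      rw [not_le] at h7
      have h8 := hn3 (⌊x⌋ + 1) (by push_cast; exact (Int.lt_floor_add_one x).le)
      omega
    unfold ip at h h'
    rw [← h6] at h'
    have h9 := hf ⌊x⌋
    rw [abs_le] at h9
    have h10 : ((f (⌊x⌋ + 1) : ℝ) - f ⌊x⌋) ≤ 1 := by
      have : f (⌊x⌋ + 1) - f ⌊x⌋ ≤ 1 := h9.2
      exact_mod_cast this
    have h11 := Int.floor_le x
    have h12 := Int.lt_floor_add_one x'
    rw [← h6] at h12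
    nlinarith
  obtain ⟨i, h3, h4, h5, h6⟩ := step hf hlt hn2 (by omega : X < f ⌊x'⌋)
  refine ⟨i, hn1.trans (by exact_mod_cast h3), ?_, h5, h6⟩
  have h7 : ((i + 1 : ℤ) : ℝ) ≤ (⌊x'⌋ : ℝ) := by exact_mod_cast h4
  push_cast at h7
  exact h7.trans (Int.floor_le x')

/-- the same with a crossing in the other sense -/
theorem cross' {f : ℤ → ℤ} (hf : ∀ i, |f (i + 1) - f i| ≤ 1) {x x' : ℝ} (hx : x ≤ x') {X : ℤ}
    (h : (X : ℝ) + 1 < ip f x) (h' : ip f x' < X) :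
    ∃ i : ℤ, x ≤ i ∧ (i : ℝ) + 1 ≤ x' ∧ f i = X + 1 ∧ f (i + 1) = X := by
  have h1 : ∀ i, |(fun i => -f i) (i + 1) - (fun i => -f i) i| ≤ 1 := by
    intro i
    have := hf i
    simp only
    rw [abs_le] at this ⊢
    omega
  have h2 : ip (fun i => -f i) x < ((-(X + 1) : ℤ) : ℝ) := by
    rw [ip_neg]; push_cast; linarith
  have h3 : ((-(X + 1) : ℤ) : ℝ) + 1 < ip (fun i => -f i) x' := by
    rw [ip_neg]; push_cast; linarith
  obtain ⟨i, h2, h3, h4, h5⟩ := cross (f := fun i => -f i) h1 hx (X := -(X + 1)) h2 h3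
  have h4' : -f i = -(X + 1) := h4
  have h5' : -f (i + 1) = -(X + 1) + 1 := h5
  exact ⟨i, h2, h3, by linarith, by linarith⟩

/-- first visit -/
theorem exists_first {f : ℤ → ℤ} (hf : ∀ i, |f (i + 1) - f i| ≤ 1) {L1 : ℤ}
    {xs xB : ℝ} (hx : xs ≤ xB) (hs : ip f xs < L1) (hB : (L1 : ℝ) + 1 < ip f xB) :
    ∃ l1 : ℤ, xs ≤ l1 ∧ (l1 : ℝ) ≤ xB ∧ f l1 = L1 ∧ ∀ l : ℤ, xs ≤ l → f l = L1 → l1 ≤ l := by
  obtain ⟨i, hi1, hi2, hi3, -⟩ := cross hf hx (X := L1) hs hB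
  obtain ⟨l1, ⟨hl1, hl2⟩, hmin⟩ := Int.exists_least_of_bdd (P := fun l : ℤ => xs ≤ l ∧ f l = L1)
    ⟨⌊xs⌋, fun z hz => by
      have : (⌊xs⌋ : ℝ) ≤ z := (Int.floor_le xs).trans hz.1
      exact_mod_cast this⟩ ⟨i, hi1, hi3⟩
  refine ⟨l1, hl1, ?_, hl2, fun l h1 h2 => hmin l ⟨h1, h2⟩⟩
  have : (l1 : ℝ) ≤ i := by exact_mod_cast hmin i ⟨hi1, hi3⟩
  linarith

/-- last visit before `l1` -/
theorem exists_last {f : ℤ → ℤ} (hf : ∀ i, |f (i + 1) - f i| ≤ 1) {L0 l1 : ℤ}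
    {xs : ℝ} (hx : xs ≤ l1) (hs : ip f xs < L0) (hB : L0 + 1 < f l1) :
    ∃ l0 : ℤ, xs ≤ l0 ∧ l0 < l1 ∧ f l0 = L0 ∧ ∀ l : ℤ, xs ≤ l → l ≤ l1 → f l = L0 → l ≤ l0 := by
  obtain ⟨i, hi1, hi2, hi3, -⟩ := cross hf hx (X := L0) hs (by
    rw [ip_int]
    exact_mod_cast hB)
  obtain ⟨l0, ⟨h0a, h0b, h0c⟩, hmax⟩ := Int.exists_greatest_of_bdd
    (P := fun l : ℤ => xs ≤ l ∧ l ≤ l1 ∧ f l = L0)
    ⟨l1, fun z hz => hz.2.1⟩ ⟨i, hi1, by
      have : ((i + 1 : ℤ) : ℝ) ≤ l1 := by push_cast; exact hi2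
      have : i + 1 ≤ l1 := by exact_mod_cast this
      omega, hi3⟩
  refine ⟨l0, h0a, ?_, h0c, fun l h1 h2 h3 => hmax l ⟨h1, h2, h3⟩⟩
  rcases h0b.lt_or_eq with h | h
  · exact h
  · rw [h] at h0c
    omega

/-- the strand from the last visit of `L0` before the first visit of `L1` to this visit -/
theorem extract {f : ℤ → ℤ} (hf : ∀ i, |f (i + 1) - f i| ≤ 1) {L0 L1 : ℤ} (hL : L0 + 1 < L1)
    {xs xB : ℝ} (hx : xs ≤ xB) (hs : ip f xs < L0) (hB : (L1 : ℝ) + 1 < ip f xB) :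
    ∃ l0 l1 : ℤ, xs ≤ l0 ∧ l0 < l1 ∧ (l1 : ℝ) ≤ xB ∧ f l0 = L0 ∧ f l1 = L1 ∧
      (∀ l, l0 < l → l < l1 → L0 < f l ∧ f l < L1) := by
  have hL' : (L0 : ℝ) + 1 < L1 := by exact_mod_cast hL
  obtain ⟨l1, hl1, hl1B, hl2, hmin⟩ := exists_first hf hx (L1 := L1) (by linarith) hB
  obtain ⟨l0, h0a, h0b, h0c, hmax⟩ := exists_last hf hl1 (L0 := L0) hs (by rw [hl2]; exact hL)
  refine ⟨l0, l1, h0a, h0b, hl1B, h0c, hl2, ?_⟩
  clear hs hB hL'
  intro l ha hb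
  have hxl : xs ≤ l := h0a.trans (by exact_mod_cast ha.le)
  constructor
  · by_contra hcon
    rw [not_lt] at hcon
    obtain ⟨k, k1, k2, k3, -⟩ := step hf hb.le hcon (by rw [hl2]; omega)
    have := hmax k (hxl.trans (by exact_mod_cast k1)) (by omega) k3
    omega
  · by_contra hcon
    rw [not_lt] at hcon
    rcases hcon.lt_or_eq with h | h
    · obtain ⟨k, k1, k2, k3, -⟩ := step hf ha.le (by rw [h0c]; omega : f l0 ≤ L1) h
      have := hmin k (h0a.trans (by exact_mod_cast k1)) k3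
      omega
    · have := hmin l hxl h.symm
      omega

theorem ip_ge {f : ℤ → ℤ} {L0 L1 l0 l1 : ℤ} (hL : L0 ≤ L1) (h0 : f l0 = L0) (h1 : f l1 = L1)
    (hin : ∀ l, l0 < l → l < l1 → L0 < f l ∧ f l < L1) {x : ℝ} (hx0 : (l0 : ℝ) ≤ x)
    (hx1 : x ≤ l1) : (L0 : ℝ) ≤ ip f x := by
  have hge : ∀ l, l0 ≤ l → l ≤ l1 → L0 ≤ f l := by
    intro l ha hb
    rcases ha.lt_or_eq with h1' | h1'
    · rcases hb.lt_or_eq with h2 | h2
      · exact (hin l h1' h2).1.le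
      · rw [h2, h1]
        exact hL
    · rw [← h1', h0]
  have h3 : l0 ≤ ⌊x⌋ := Int.le_floor.2 hx0
  rcases hx1.lt_or_eq with h4 | h4
  · have h5 : ⌊x⌋ < l1 := Int.floor_lt.2 h4
    refine ip_mem ?_ ?_
    · exact_mod_cast hge _ h3 h5.le
    · exact_mod_cast hge _ (by omega) (by omega)
  · rw [h4, ip_int, h1]
    exact_mod_cast hL

end Vale.Agent.P155.TL
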