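import Vale.Agent.P155.H878.DetIface
import Vale.Agent.P155.TL801.Disc

/-!
# P155, literal Q1, TL (B2): properties of the two directions
-/

namespace Vale.Agent.P155.TL

open Set Topology Filter Vale.Agent.P155 Vale.Agent.P155.Q1

/-- the properties of `hor` and `ver` -/
structure IsDir (d : Dir) : Prop where
  P_pt : ∀ δ A v, d.P (pt δ A v) = d.P A + δ * d.p v
  Q_pt : ∀ δ A v, d.Q (pt δ A v) = d.Q A + δ * d.q v
  P_lip : ∀ z w, |d.P z - d.P w| ≤ dist z w
  Q_lip : ∀ z w, |d.Q z - d.Q w| ≤ dist z w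
  P_cont : Continuous d.P
  Q_cont : Continuous d.Q
  P_lin : ∀ (z w : ℂ) (c : ℝ), d.P (z + (c : ℂ) * (w - z)) = d.P z + c * (d.P w - d.P z)
  adj_p : ∀ u v, Adj u v → |d.p v - d.p u| ≤ 1
  adj_q : ∀ u v, Adj u v → d.p v ≠ d.p u → d.q v = d.q u

theorem isDir {d : Dir} (hd : d = hor ∨ d = ver) : IsDir d := by
  rcases hd with rfl | rfl
  · refine ⟨?_, ?_, ?_, ?_, Complex.continuous_re, Complex.continuous_im, ?_, ?_, ?_⟩
    · intro δ A v
      simp [hor, pt]
    · intro δ A v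
      simp [hor, pt]
    · intro z w
      rw [Complex.dist_eq]
      exact Complex.abs_re_le_norm (z - w)
    · intro z w
      rw [Complex.dist_eq]
      exact Complex.abs_im_le_norm (z - w)
    · intro z w c
      simp [hor]
    · intro u v h
      unfold Adj at h
      show |v.1 - u.1| ≤ 1
      rw [abs_sub_comm]
      have := abs_nonneg (u.2 - v.2)
      omega
    · intro u v h hne
      unfold Adj at h
      change v.1 ≠ u.1 at hne
      show v.2 = u.2
      have h1 : 0 < |u.1 - v.1| := abs_pos.2 (sub_ne_zero.2 hne.symm)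
      have h2 : |u.2 - v.2| = 0 := by
        have := abs_nonneg (u.2 - v.2)
        omega
      rw [abs_eq_zero] at h2
      omega
  · refine ⟨?_, ?_, ?_, ?_, Complex.continuous_im, Complex.continuous_re, ?_, ?_, ?_⟩
    · intro δ A v
      simp [ver, pt]
    · intro δ A v
      simp [ver, pt]
    · intro z w
      rw [Complex.dist_eq]
      exact Complex.abs_im_le_norm (z - w)
    · intro z w
      rw [Complex.dist_eq]
      exact Complex.abs_re_le_norm (z - w)
    · intro z w c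
      simp [ver]
    · intro u v h
      unfold Adj at h
      show |v.2 - u.2| ≤ 1
      rw [abs_sub_comm]
      have := abs_nonneg (u.1 - v.1)
      omega
    · intro u v h hne
      unfold Adj at h
      change v.2 ≠ u.2 at hne
      show v.1 = u.1
      have h1 : 0 < |u.2 - v.2| := abs_pos.2 (sub_ne_zero.2 hne.symm)
      have h2 : |u.1 - v.1| = 0 := by
        have := abs_nonneg (u.1 - v.1)
        omega
      rw [abs_eq_zero] at h2
      omega

variable {d : Dir} (hd : IsDir d)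

include hd in
theorem P_poly (δ : ℝ) (A : ℂ) (y : ℤ → Pt) (x : ℝ) :
    d.P (poly (fun l => pt δ A (y l)) x) = d.P A + δ * ip (fun l => d.p (y l)) x := by
  unfold poly ip
  rw [hd.P_lin, hd.P_pt, hd.P_pt]
  ring

include hd in
theorem steps {y : ℤ → Pt} (hy : ∀ l, Adj (y l) (y (l + 1))) (i : ℤ) :
    |d.p (y (i + 1)) - d.p (y i)| ≤ 1 := hd.adj_p _ _ (hy i)

/-! comparison with lattice coordinates -/

theorem lt_lp {δ : ℝ} (hδ : 0 < δ) {A : ℂ} {r F : ℝ} (h : d.P A + δ * F < r - δ) :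
    F < d.lp δ A r := by
  unfold Dir.lp
  have h1 := Int.sub_one_lt_floor ((r - d.P A) / δ)
  refine lt_of_lt_of_le ?_ h1.le
  rw [lt_sub_iff_add_lt, lt_div_iff₀ hδ]
  nlinarith

theorem lp_lt {δ : ℝ} (hδ : 0 < δ) {A : ℂ} {r F : ℝ} (h : r + δ < d.P A + δ * F) :
    (d.lp δ A r : ℝ) + 1 < F := by
  unfold Dir.lp
  have h1 := Int.floor_le ((r - d.P A) / δ)
  have h2 : (r - d.P A) / δ + 1 < F := by
    rw [← lt_sub_iff_add_lt, div_lt_iff₀ hδ]
    nlinarith
  linarith

theorem lp_le {δ : ℝ} (hδ : 0 < δ) {A : ℂ} {r F : ℝ} (h : (d.lp δ A r : ℝ) ≤ F) :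
    r - δ < d.P A + δ * F := by
  unfold Dir.lp at h
  have h1 := Int.sub_one_lt_floor ((r - d.P A) / δ)
  have h2 : (r - d.P A) / δ - 1 < F := by linarith
  rw [sub_lt_iff_lt_add, div_lt_iff₀ hδ] at h2
  nlinarith

theorem le_lp {δ : ℝ} (hδ : 0 < δ) {A : ℂ} {r F : ℝ} (h : F ≤ (d.lp δ A r : ℝ)) :
    d.P A + δ * F ≤ r := by
  unfold Dir.lp at h
  have h1 := Int.floor_le ((r - d.P A) / δ)
  have h2 : F ≤ (r - d.P A) / δ := h.trans h1
  rw [le_div_iff₀ hδ] at h2
  nlinarith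

theorem lq_le_int {δ : ℝ} (hδ : 0 < δ) {A : ℂ} {s : ℝ} {n : ℤ} (h : s < d.Q A + δ * n) :
    d.lq δ A s ≤ n := by
  have h1 : (s - d.Q A) / δ ≤ n := by
    rw [div_le_iff₀ hδ]
    nlinarith
  have := Int.floor_le_floor h1
  rwa [Int.floor_intCast] at this

theorem int_le_lq {δ : ℝ} (hδ : 0 < δ) {A : ℂ} {s : ℝ} {n : ℤ} (h : d.Q A + δ * n ≤ s) :
    n ≤ d.lq δ A s := by
  unfold Dir.lq
  rw [Int.le_floor, le_div_iff₀ hδ]
  nlinarith

end Vale.Agent.P155.TL
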