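import Vale.Agent.P155.TL801.Str

/-!
# P155, literal Q1, TL (C): convergence of the tops
-/

namespace Vale.Agent.P155.TL

open Set Topology Filter Vale.Agent.P155 Vale.Agent.P155.Q1

/-- the heights of the edges of the strand in the column `X` -/
def TS (p q : Pt → ℤ) (y : ℤ → Pt) (l : ℤ) (m : ℕ) (X : ℤ) : Set ℤ :=
  {Y : ℤ | ∃ i : ℕ, i < m ∧ q (y (l + i)) = Y ∧ q (y (l + i + 1)) = Y ∧
    min (p (y (l + i))) (p (y (l + i + 1))) = X ∧ max (p (y (l + i))) (p (y (l + i + 1))) = X + 1}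

theorem topY_eq (p q : Pt → ℤ) (y : ℤ → Pt) (l : ℤ) (m : ℕ) (X : ℤ) :
    topY p q y l m X = sSup (TS p q y l m X) := rfl

theorem TS_sub {p q : Pt → ℤ} {y : ℤ → Pt} {p0 p1 q0 q1 l : ℤ} {m : ℕ}
    (h : StrandY p q y p0 p1 q0 q1 l m) (X : ℤ) : TS p q y l m X ⊆ Icc q0 q1 := by
  rintro Y ⟨i, hi, h1, -⟩
  rw [← h1]
  exact h.qmem i hi.le

theorem le_topY {p q : Pt → ℤ} {y : ℤ → Pt} {p0 p1 q0 q1 l : ℤ} {m : ℕ}
    (h : StrandY p q y p0 p1 q0 q1 l m) {X Y : ℤ} (hY : Y ∈ TS p q y l m X) :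
    Y ≤ topY p q y l m X :=
  le_csSup ⟨q1, fun _ hZ => (TS_sub h X hZ).2⟩ hY

theorem topY_mem {p q : Pt → ℤ} {y : ℤ → Pt} {p0 p1 q0 q1 l : ℤ} {m : ℕ}
    (h : StrandY p q y p0 p1 q0 q1 l m) {X : ℤ} (hne : (TS p q y l m X).Nonempty) :
    topY p q y l m X ∈ TS p q y l m X :=
  Int.csSup_mem hne ⟨q1, fun _ hZ => (TS_sub h X hZ).2⟩

theorem mem_TS {d : Dir} (hd : IsDir d) {y : ℤ → Pt} (hy : ∀ l, Adj (y l) (y (l + 1)))
    {l0 l1 i X : ℤ} (h0 : l0 ≤ i) (h1 : i + 1 ≤ l1)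
    (h : (d.p (y i) = X ∧ d.p (y (i + 1)) = X + 1) ∨ (d.p (y i) = X + 1 ∧ d.p (y (i + 1)) = X)) :
    d.q (y i) ∈ TS d.p d.q y l0 (l1 - l0).toNat X := by
  have hq : d.q (y (i + 1)) = d.q (y i) := hd.adj_q _ _ (hy i) (by omega)
  have e : l0 + ((i - l0).toNat : ℤ) = i := by
    rw [Int.toNat_of_nonneg (by omega)]
    ring
  refine ⟨(i - l0).toNat, by omega, ?_⟩
  rw [e]
  refine ⟨rfl, hq, ?_, ?_⟩
  · rcases h with h | h <;> rw [h.1, h.2] <;> simp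
  · rcases h with h | h <;> rw [h.1, h.2] <;> simp

theorem Str.nonempty {d : Dir} (hd : IsDir d) {δ : ℝ} {A : ℂ} {y : ℤ → Pt}
    (hy : ∀ l, Adj (y l) (y (l + 1))) {g : ℝ → ℝ} {s t : ℝ} {θ : ℝ → ℝ}
    {r0 r1 s0 s1 A' B : ℝ} {l0 l1 : ℤ} (h : Str d δ A y g s t θ r0 r1 s0 s1 A' B l0 l1) {X : ℤ}
    (h0 : d.lp δ A r0 ≤ X) (h1 : X < d.lp δ A r1) :
    (TS d.p d.q y l0 (l1 - l0).toNat X).Nonempty := by
  have e0 : (fun l => d.p (y l)) l0 ≤ X := by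
    show d.p (y l0) ≤ X
    rw [h.f0]
    exact h0
  have e1 : X < (fun l => d.p (y l)) l1 := by
    show X < d.p (y l1)
    rw [h.f1]
    exact h1
  obtain ⟨i, h2, h3, h4, h5⟩ := step (f := fun l => d.p (y l)) (steps hd hy) h.lt.le e0 e1
  exact ⟨_, mem_TS hd hy h2 h3 (Or.inl ⟨h4, h5⟩)⟩

/-- the top of the limit curve -/
noncomputable def T (d : Dir) (K : ℝ → ℂ) (α β x : ℝ) : ℝ :=
  sSup ((fun τ => d.Q (K τ)) '' {τ | τ ∈ Icc α β ∧ d.P (K τ) = x})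

section

variable {d : Dir} (hd : IsDir d) {K : ℝ → ℂ} (hK : Continuous K) {a b : ℝ}
  {r0 r0' r1' r1 A' α β B : ℝ}
  (hS : Sel (fun x => d.P (K x)) a b r0 r0' r1' r1 A' α β B)

include hd hK hS

theorem T_spec {x : ℝ} (hx : x ∈ Ioo r0' r1') : ∃ τ ∈ Ioo α β, d.P (K τ) = x ∧
    d.Q (K τ) = T d K α β x ∧ ∀ τ' ∈ Icc A' B, d.P (K τ') = x → d.Q (K τ') ≤ T d K α β x := by
  have hPc : Continuous fun x => d.P (K x) := hd.P_cont.comp hK
  have hQc : Continuous fun x => d.Q (K x) := hd.Q_cont.comp hK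
  set C : Set ℝ := {τ | τ ∈ Icc α β ∧ d.P (K τ) = x} with hC
  have hCc : IsCompact C := isCompact_Icc.inter_right (isClosed_eq hPc continuous_const)
  have hne : C.Nonempty := by
    have h1 : x ∈ Icc (d.P (K α)) (d.P (K β)) := by
      have e1 : d.P (K α) = r0 := hS.eα
      have e2 : d.P (K β) = r1 := hS.eβ
      rw [e1, e2]
      exact ⟨by linarith [hx.1, hS.l0], by linarith [hx.2, hS.l2]⟩
    obtain ⟨τ, h2, h3⟩ := intermediate_value_Icc hS.αβ.le hPc.continuousOn h1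
    exact ⟨τ, h2, h3⟩
  have hI : IsCompact ((fun τ => d.Q (K τ)) '' C) := hCc.image hQc
  obtain ⟨τ, hτ, hτT⟩ := hI.sSup_mem (hne.image _)
  have hτT' : d.Q (K τ) = T d K α β x := hτT
  have hτx : d.P (K τ) = x := hτ.2
  refine ⟨τ, ⟨?_, ?_⟩, hτx, hτT', ?_⟩
  · rcases hτ.1.1.lt_or_eq with h | h
    · exact h
    · have e1 : d.P (K α) = r0 := hS.eα
      rw [← h, e1] at hτx
      linarith [hx.1, hS.l0]
  · rcases hτ.1.2.lt_or_eq with h | h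
    · exact h
    · have e1 : d.P (K β) = r1 := hS.eβ
      rw [h, e1] at hτx
      linarith [hx.2, hS.l2]
  · intro τ' h1 h2
    refine le_csSup hI.bddAbove ⟨τ', ⟨⟨?_, ?_⟩, h2⟩, rfl⟩
    · by_contra hcon
      rw [not_le] at hcon
      have := hS.lt0 τ' ⟨h1.1, hcon.le⟩
      simp only [h2] at this
      linarith [hx.1]
    · by_contra hcon
      rw [not_le] at hcon
      have := hS.gt1 τ' ⟨hcon.le, h1.2⟩
      simp only [h2] at this
      linarith [hx.2]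

theorem near_T {x : ℝ} (hx : x ∈ Ioo r0' r1') {ε : ℝ} (hε : 0 < ε) :
    ∃ η : ℝ, 0 < η ∧ ∀ τ ∈ Icc A' B, |d.P (K τ) - x| < η → d.Q (K τ) < T d K α β x + ε := by
  have hPc : Continuous fun x => d.P (K x) := hd.P_cont.comp hK
  have hQc : Continuous fun x => d.Q (K x) := hd.Q_cont.comp hK
  obtain ⟨-, -, -, -, hT⟩ := T_spec hd hK hS hx
  set C : Set ℝ := Icc A' B ∩ {τ | T d K α β x + ε ≤ d.Q (K τ)} with hC
  have hCc : IsCompact C := isCompact_Icc.inter_right (isClosed_le continuous_const hQc)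
  rcases C.eq_empty_or_nonempty with he | hne
  · refine ⟨1, one_pos, fun τ h1 _ => ?_⟩
    by_contra hcon
    rw [not_lt] at hcon
    have : τ ∈ C := ⟨h1, hcon⟩
    rw [he] at this
    exact this
  · have hc : Continuous fun τ => |d.P (K τ) - x| := (hPc.sub continuous_const).abs
    obtain ⟨τ0, h0, hmin⟩ := hCc.exists_isMinOn hne hc.continuousOn
    have hpos : 0 < |d.P (K τ0) - x| := by
      rw [abs_pos, sub_ne_zero]
      intro h1
      have h2 := hT τ0 h0.1 h1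
      have h3 : T d K α β x + ε ≤ d.Q (K τ0) := h0.2
      linarith
    refine ⟨_, hpos, fun τ h1 h2 => ?_⟩
    by_contra hcon
    rw [not_lt] at hcon
    have : |d.P (K τ0) - x| ≤ |d.P (K τ) - x| := hmin (⟨h1, hcon⟩ : τ ∈ C)
    linarith

end

/-- the column of `x` -/
noncomputable def col (d : Dir) (δ : ℝ) (A : ℂ) (x : ℝ) : ℤ := d.lp δ A x

theorem col_le {d : Dir} {δ : ℝ} (hδ : 0 < δ) (A : ℂ) (x : ℝ) :
    d.P A + δ * (col d δ A x : ℝ) ≤ x := le_lp hδ le_rfl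

theorem lt_col {d : Dir} {δ : ℝ} (hδ : 0 < δ) (A : ℂ) (x : ℝ) :
    x < d.P A + δ * ((col d δ A x : ℝ) + 1) := by
  unfold col Dir.lp
  have h := Int.lt_floor_add_one ((x - d.P A) / δ)
  rw [div_lt_iff₀ hδ] at h
  nlinarith

/-- upper bound for the top -/
theorem top_lt {d : Dir} (hd : IsDir d) {K : ℝ → ℂ} {a b : ℝ}
    {r0 r1 A' B s0 s1 δ : ℝ} {A : ℂ} {y : ℤ → Pt} {g : ℝ → ℝ} {s t : ℝ} {θ : ℝ → ℝ} {ε : ℝ}
    (h : One K a b δ A y g s t θ ε) {l0 l1 : ℤ}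
    (hs : Str d δ A y g s t θ r0 r1 s0 s1 A' B l0 l1) {x : ℝ} (h0 : r0 ≤ x) (h1 : x + δ ≤ r1)
    {η M : ℝ} (hη : ε + δ < η)
    (hM : ∀ τ ∈ Icc A' B, |d.P (K τ) - x| < η → d.Q (K τ) < M) :
    δ * (topY d.p d.q y l0 (l1 - l0).toNat (col d δ A x) : ℝ) + d.Q A < M + ε := by
  have hδ := h.hδ
  have hX0 : d.lp δ A r0 ≤ col d δ A x := Int.floor_le_floor (by gcongr)
  have hX1 : col d δ A x < d.lp δ A r1 := by
    have h2 : (x - d.P A) / δ + 1 ≤ (r1 - d.P A) / δ := by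
      rw [← le_sub_iff_add_le', ← sub_div, le_div_iff₀ hδ]
      linarith
    have h3 := Int.floor_le_floor h2
    rw [Int.floor_add_one] at h3
    exact h3
  obtain ⟨i, hi, h2, h3, h4, h5⟩ := topY_mem hs.strand (hs.nonempty hd h.adj hX0 hX1)
  have hcol1 := col_le (d := d) hδ A x
  have hcol2 := lt_col (d := d) hδ A x
  have hm : ((l1 - l0).toNat : ℤ) = l1 - l0 := Int.toNat_of_nonneg (by have := hs.lt; omega)
  have hr0 : (l0 : ℝ) ≤ ((l0 + i : ℤ) : ℝ) := by exact_mod_cast (by omega : l0 ≤ l0 + (i : ℤ))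
  have hr1 : ((l0 + i : ℤ) : ℝ) ≤ l1 := by exact_mod_cast (by omega : l0 + (i : ℤ) ≤ l1)
  have hmem : θ ((l0 + i : ℤ) : ℝ) ∈ Icc s t :=
    ⟨hs.hs.trans (h.mono.monotone hr0), (h.mono.monotone hr1).trans hs.ht⟩
  have hP := One.closeP hd h hmem
  have hQ := One.closeQ hd h hmem
  rw [ip_int] at hP
  have hg := hs.rng _ hr0 hr1
  have hp : col d δ A x ≤ d.p (y (l0 + i)) ∧ d.p (y (l0 + i)) ≤ col d δ A x + 1 := by
    constructor
    · rw [← h4]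
      exact min_le_left _ _
    · rw [← h5]
      exact le_max_left _ _
  have hp1 : (col d δ A x : ℝ) ≤ d.p (y (l0 + i)) := by exact_mod_cast hp.1
  have hp2 : (d.p (y (l0 + i)) : ℝ) ≤ col d δ A x + 1 := by exact_mod_cast hp.2
  have hM' := hM _ hg (by
    rw [abs_lt]
    rw [abs_le] at hP
    constructor
    · nlinarith [hP.1, hP.2]
    · nlinarith [hP.1, hP.2])
  rw [h2, abs_le] at hQ
  linarith [hQ.2]

end Vale.Agent.P155.TL
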