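import Vale.Agent.P155.TL801.Low

/-!
# P155, literal Q1, TL: one family
-/

namespace Vale.Agent.P155.TL

open Set Topology Filter Vale.Agent.P155 Vale.Agent.P155.Q1

/-- The conclusion for one family of paths. -/
structure Conc (d : Dir) (K : ℝ → ℂ) (r0 r0' r1' r1 s0 s1 : ℝ) (Tf : ℝ → ℝ) (δ : ℕ → ℝ)
    (A : ℕ → ℂ) (y : ℕ → ℤ → Pt) (s t : ℝ) (θ : ℕ → ℝ → ℝ) (l : ℕ → ℤ) (m : ℕ → ℕ) : Prop where
  strand : ∀ᶠ j in atTop, StrandY d.p d.q (y j) (d.lp (δ j) (A j) r0) (d.lp (δ j) (A j) r1)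
    (d.lq (δ j) (A j) s0) (d.lq (δ j) (A j) s1) (l j) (m j) ∧ s ≤ θ j (l j) ∧
    θ j (l j + m j) ≤ t
  ne : ∀ᶠ j in atTop, ∀ X, d.lp (δ j) (A j) r0 ≤ X → X < d.lp (δ j) (A j) r1 →
    (TS d.p d.q (y j) (l j) (m j) X).Nonempty
  lim : ∀ x ∈ Ioo r0' r1', NE (fun τ => d.P (K τ)) x → Tendsto (fun j => δ j *
    (topY d.p d.q (y j) (l j) (m j) (col d (δ j) (A j) x) : ℝ) + d.Q (A j)) atTop (𝓝 (Tf x))

variable {d : Dir} (hd : IsDir d) {K : ℝ → ℂ} (hK : Continuous K) {a b : ℝ}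
  {r0 r0' r1' r1 A' α β B : ℝ}
  (hS : Sel (fun x => d.P (K x)) a b r0 r0' r1' r1 A' α β B)
  {δ : ℕ → ℝ} {A : ℕ → ℂ} {y : ℕ → ℤ → Pt} {g : ℝ → ℝ} {s t : ℝ} {θ : ℕ → ℝ → ℝ}

theorem ev_one (hδ : ∀ j, 0 < δ j) (h : Follow K a b δ A y g s t θ) (hs : g s = a) (ht : g t = b)
    {ε : ℝ} (hε : 0 < ε) : ∀ᶠ j in atTop, One K a b (δ j) (A j) (y j) g s t (θ j) ε := by
  filter_upwards [h.close ε hε] with j hj
  exact ⟨hδ j, h.adj j, h.st, h.gc, h.gmem, hs, ht, h.cont j, h.mono j, h.surj j, hj⟩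

theorem ev_small (hδ0 : Tendsto δ atTop (𝓝 0)) {c : ℝ} (hc : 0 < c) : ∀ᶠ j in atTop, δ j < c :=
  hδ0.eventually (gt_mem_nhds hc)

include hd hK hS in
theorem conc_fw (hδ : ∀ j, 0 < δ j) (hδ0 : Tendsto δ atTop (𝓝 0))
    (h : Follow K a b δ A y g s t θ) (hgs : g s = a) (hgt : g t = b) {s0 s1 : ℝ}
    (hQ : ∀ x ∈ Icc a b, s0 < d.Q (K x) ∧ d.Q (K x) < s1) :
    ∃ l m, Conc d K r0 r0' r1' r1 s0 s1 (T d K α β) δ A y s t θ l m := by
  have hPc : Continuous fun x => d.P (K x) := hd.P_cont.comp hK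
  have hQc : Continuous fun x => d.Q (K x) := hd.Q_cont.comp hK
  obtain ⟨c, hc, hstr⟩ := exists_str hd hK hS hQ
  have hev : ∀ᶠ j in atTop, ∃ p : ℤ × ℤ,
      Str d (δ j) (A j) (y j) g s t (θ j) r0 r1 s0 s1 A' B p.1 p.2 := by
    filter_upwards [ev_one hδ h hgs hgt (show 0 < c / 2 by positivity),
      ev_small hδ0 (show 0 < c / 4 by positivity)] with j h1 h2
    obtain ⟨l0, l1, h3⟩ := hstr _ _ _ _ _ _ _ _ h1 (by linarith)
    exact ⟨(l0, l1), h3⟩
  obtain ⟨f, hf⟩ := hev.choice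
  refine ⟨fun j => (f j).1, fun j => ((f j).2 - (f j).1).toNat, ?_, ?_, ?_⟩
  · filter_upwards [hf] with j hj
    have e : ((f j).1 : ℝ) + ((((f j).2 - (f j).1).toNat : ℕ) : ℝ) = (f j).2 := by
      have h1 : ((((f j).2 - (f j).1).toNat : ℕ) : ℤ) = (f j).2 - (f j).1 :=
        Int.toNat_of_nonneg (by have := hj.lt; omega)
      have h2 : ((((f j).2 - (f j).1).toNat : ℕ) : ℝ) = (((f j).2 - (f j).1 : ℤ) : ℝ) := by
        exact_mod_cast congrArg (fun z : ℤ => (z : ℝ)) h1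
      rw [h2]
      push_cast
      ring
    refine ⟨hj.strand, hj.hs, ?_⟩
    rw [e]
    exact hj.ht
  · filter_upwards [hf] with j hj X h0 h1
    exact hj.nonempty hd (h.adj j) h0 h1
  · intro x hx hNE
    obtain ⟨τ, hτ, hτx, hτT, -⟩ := T_spec hd hK hS hx
    refine tendsto_order.2 ⟨fun M hM => ?_, fun M hM => ?_⟩
    · -- lower bound
      have hε : 0 < (T d K α β x - M) / 2 := by linarith
      set ε := (T d K α β x - M) / 2 with hεdef
      have hnhds : ∀ᶠ τ' in 𝓝 τ, T d K α β x - ε < d.Q (K τ') ∧ τ' ∈ Ioo α β := by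
        refine (hQc.continuousAt.eventually (lt_mem_nhds ?_)).and (Ioo_mem_nhds hτ.1 hτ.2)
        show T d K α β x - ε < d.Q (K τ)
        rw [hτT]
        linarith
      obtain ⟨η, hη, hball⟩ := Metric.eventually_nhds_iff.1 hnhds
      obtain ⟨⟨τ1, h1, h1x⟩, τ2, h2, h2x⟩ := hNE τ hτx η hη
      simp only at h1x h2x
      obtain ⟨lo, hi, hlh, hlo, hhi, hlohi⟩ : ∃ lo hi, lo < hi ∧ |lo - τ| < η ∧ |hi - τ| < η ∧
          ((d.P (K lo) < x ∧ x < d.P (K hi)) ∨ (x < d.P (K lo) ∧ d.P (K hi) < x)) := by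
        rcases lt_trichotomy τ1 τ2 with h3 | h3 | h3
        · exact ⟨τ1, τ2, h3, h1, h2, Or.inl ⟨h1x, h2x⟩⟩
        · rw [h3] at h1x
          exact absurd h1x (not_lt.2 h2x.le)
        · exact ⟨τ2, τ1, h3, h2, h1, Or.inr ⟨h2x, h1x⟩⟩
      have hloI := (hball (y := lo) (by rwa [Real.dist_eq])).2
      have hhiI := (hball (y := hi) (by rwa [Real.dist_eq])).2
      have hmid : ∀ τ' ∈ Icc lo hi, T d K α β x - ε < d.Q (K τ') := by
        intro τ' hτ'
        apply (hball ?_).1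
        rw [Real.dist_eq, abs_lt]
        rw [abs_lt] at hlo hhi
        constructor <;> linarith [hτ'.1, hτ'.2, hlo.1, hhi.2]
      have hev : ∀ᶠ c in 𝓝[>] (0 : ℝ), 0 < c ∧
          ((d.P (K lo) < x - c ∧ x + c < d.P (K hi)) ∨
            (x + c < d.P (K lo) ∧ d.P (K hi) < x - c)) ∧
          (∀ τ ∈ Icc lo B, r0 + c < d.P (K τ)) ∧ (∀ τ ∈ Icc a hi, d.P (K τ) < r1 - c) := by
        have e3 := ev_gt hPc (u := lo) (v := B) (r := r0) (fun τ hτ => by
          rcases le_or_gt τ β with h | h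
          · exact hS.gt0 τ ⟨hloI.1.trans_le hτ.1, h⟩
          · have := hS.gt1 τ ⟨h.le, hτ.2⟩
            linarith [hS.l0, hS.l1])
        have e4 := ev_lt hPc (u := a) (v := hi) (r := r1) (fun τ hτ =>
          hS.lt1 τ ⟨hτ.1, hτ.2.trans_lt hhiI.2⟩)
        rcases hlohi with ⟨h3, h4⟩ | ⟨h3, h4⟩
        · filter_upwards [self_mem_nhdsWithin, ev_lt1 h3, ev_lt1 h4, e3, e4] with c c0 c1 c2 c3 c4
          exact ⟨c0, Or.inl ⟨c1, by linarith⟩, c3, c4⟩
        · filter_upwards [self_mem_nhdsWithin, ev_lt1 h3, ev_lt1 h4, e3, e4] with c c0 c1 c2 c3 c4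
          exact ⟨c0, Or.inr ⟨by linarith, c2⟩, c3, c4⟩
      obtain ⟨c', hc', hcx, hc0, hc1⟩ := hev.exists
      filter_upwards [hf, ev_one hδ h hgs hgt (show 0 < min (c' / 4) ε by positivity),
        ev_small hδ0 (show 0 < c' / 4 by positivity)] with j hj hone hsm
      have hm1 := min_le_left (c' / 4) ε
      have hm2 := min_le_right (c' / 4) ε
      have := lt_top hd hone hj (start_lt hd hone hj (by linarith) hc0) hlh
        (lt_end hd hone hj (by linarith) hc1) (c := c') (by linarith) hcx hmid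
      linarith
    · -- upper bound
      have hε : 0 < (M - T d K α β x) / 2 := by linarith
      set ε := (M - T d K α β x) / 2 with hεdef
      obtain ⟨η, hη, hnear⟩ := near_T hd hK hS hx hε
      have hr1 : 0 < r1 - x := by linarith [hx.2, hS.l2]
      filter_upwards [hf, ev_one hδ h hgs hgt (show 0 < min (η / 2) ε by positivity),
        ev_small hδ0 (show 0 < η / 2 by positivity), ev_small hδ0 hr1] with j hj hone hsm hsm2
      have hm1 := min_le_left (η / 2) ε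
      have hm2 := min_le_right (η / 2) ε
      have := top_lt hd hone hj (x := x) (by linarith [hx.1, hS.l0]) (by linarith) (η := η)
        (by linarith) hnear
      linarith

/-! ### reversed paths -/

theorem adj_symm' {u v : Pt} (h : Adj u v) : Adj v u := by
  unfold Adj at *
  rw [abs_sub_comm v.1, abs_sub_comm v.2]
  exact h

theorem poly_rev (z : ℤ → ℂ) (x : ℝ) : poly (fun l => z (-l)) x = poly z (-x) := by
  have h1 := Int.floor_le x
  have h2 := Int.lt_floor_add_one x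
  rw [poly_of_mem (fun l => z (-l)) h1 h2.le,
    poly_of_mem z (n := -(⌊x⌋ + 1)) (t := -x) (by push_cast; linarith) (by push_cast; linarith)]
  rw [show -(⌊x⌋ + 1) + 1 = -⌊x⌋ by ring]
  push_cast
  ring

theorem follow_rev (h : Follow K a b δ A y g s t θ) :
    Follow K a b δ A (fun j l => y j (-l)) (fun x => g (s + t - x)) s t
      (fun j x => s + t - θ j (-x)) := by
  have hgc := h.gc
  refine ⟨?_, h.st, by fun_prop, ?_, ?_, ?_, ?_, ?_, ?_⟩
  · intro j l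
    have := h.adj j (-(l + 1))
    rw [show -(l + 1) + 1 = -l by ring] at this
    exact adj_symm' this
  · intro x hx
    exact h.gmem _ ⟨by linarith [hx.2], by linarith [hx.1]⟩
  · simp only [add_sub_cancel_left, add_sub_cancel_right]
    rcases h.gends with h1 | h1
    · exact Or.inr ⟨h1.2, h1.1⟩
    · exact Or.inl ⟨h1.2, h1.1⟩
  · intro j
    have := h.cont j
    fun_prop
  · intro j x x' hx
    have := h.mono j (neg_lt_neg hx)
    show s + t - θ j (-x) < s + t - θ j (-x')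
    linarith
  · intro j x
    obtain ⟨z, hz⟩ := h.surj j (s + t - x)
    refine ⟨-z, ?_⟩
    show s + t - θ j (- -z) = x
    rw [neg_neg, hz]
    ring
  · intro ε hε
    filter_upwards [h.close ε hε] with j hj x hx
    have := hj (-x) ⟨by linarith [hx.2], by linarith [hx.1]⟩
    rw [poly_rev (fun l => pt (δ j) (A j) (y j l)) x]
    simp only [sub_sub_cancel]
    exact this

theorem strand_rev {p q : Pt → ℤ} {y : ℤ → Pt} {p0 p1 q0 q1 l : ℤ} {m : ℕ}
    (h : StrandY p q (fun i => y (-i)) p0 p1 q0 q1 l m) :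
    StrandY p q y p0 p1 q0 q1 (-(l + m)) m := by
  have e : ∀ i : ℕ, i ≤ m → -(l + (m : ℤ)) + (i : ℤ) = -(l + ((m - i : ℕ) : ℤ)) := by
    intro i hi
    rw [Nat.cast_sub hi]
    ring
  refine ⟨?_, ?_, ?_⟩
  · intro i hi
    rw [e i hi]
    exact h.qmem (m - i) (Nat.sub_le _ _)
  · intro i h0 h1
    rw [e i h1.le]
    exact h.pmem (m - i) (by omega) (by omega)
  · have h1 := h.ends
    rw [show -(l + (m : ℤ)) + (m : ℤ) = -l by ring]
    rcases h1 with h1 | h1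
    · exact Or.inr ⟨h1.2, h1.1⟩
    · exact Or.inl ⟨h1.2, h1.1⟩

theorem TS_rev {p q : Pt → ℤ} (y : ℤ → Pt) (l : ℤ) (m : ℕ) (X : ℤ) :
    TS p q y (-(l + m)) m X = TS p q (fun i => y (-i)) l m X := by
  ext Y
  constructor
  · rintro ⟨i, hi, h1, h2, h3, h4⟩
    have e1 : -(l + (m : ℤ)) + (i : ℤ) = -(l + ((m - 1 - i : ℕ) : ℤ) + 1) := by
      rw [Nat.cast_sub (by omega), Nat.cast_sub (by omega)]
      push_cast
      ring
    have e2 : -(l + (m : ℤ)) + (i : ℤ) + 1 = -(l + ((m - 1 - i : ℕ) : ℤ)) := by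
      rw [e1]
      ring
    rw [e2] at h2 h3 h4
    rw [e1] at h1 h3 h4
    refine ⟨m - 1 - i, by omega, h2, h1, ?_, ?_⟩
    · rw [min_comm]
      exact h3
    · rw [max_comm]
      exact h4
  · rintro ⟨i, hi, h1, h2, h3, h4⟩
    have e1 : -(l + (m : ℤ)) + ((m - 1 - i : ℕ) : ℤ) = -(l + (i : ℤ) + 1) := by
      rw [Nat.cast_sub (by omega), Nat.cast_sub (by omega)]
      push_cast
      ring
    have e2 : -(l + (m : ℤ)) + ((m - 1 - i : ℕ) : ℤ) + 1 = -(l + (i : ℤ)) := by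
      rw [e1]
      ring
    refine ⟨m - 1 - i, by omega, ?_⟩
    rw [e2, e1]
    refine ⟨h2, h1, ?_, ?_⟩
    · rw [min_comm]
      exact h3
    · rw [max_comm]
      exact h4

theorem conc_rev {s0 s1 : ℝ} {Tf : ℝ → ℝ} {l : ℕ → ℤ} {m : ℕ → ℕ}
    (h : Conc d K r0 r0' r1' r1 s0 s1 Tf δ A (fun j i => y j (-i)) s t
      (fun j x => s + t - θ j (-x)) l m) :
    Conc d K r0 r0' r1' r1 s0 s1 Tf δ A y s t θ (fun j => -(l j + m j)) m := by
  refine ⟨?_, ?_, ?_⟩
  · filter_upwards [h.strand] with j hj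
    refine ⟨strand_rev hj.1, ?_, ?_⟩
    · have := hj.2.2
      push_cast
      linarith
    · have h1 := hj.2.1
      have e : ((-(l j + m j) : ℤ) : ℝ) + (m j : ℝ) = -(l j : ℝ) := by
        push_cast
        ring
      rw [e]
      linarith
  · filter_upwards [h.ne] with j hj X h0 h1
    rw [TS_rev]
    exact hj X h0 h1
  · intro x hx hNE
    have := h.lim x hx hNE
    simp only [topY_eq, TS_rev] at this ⊢
    exact this

include hd hK hS in
theorem conc_all (hδ : ∀ j, 0 < δ j) (hδ0 : Tendsto δ atTop (𝓝 0))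
    (h : Follow K a b δ A y g s t θ) {s0 s1 : ℝ}
    (hQ : ∀ x ∈ Icc a b, s0 < d.Q (K x) ∧ d.Q (K x) < s1) :
    ∃ l m, Conc d K r0 r0' r1' r1 s0 s1 (T d K α β) δ A y s t θ l m := by
  rcases h.gends with h1 | h1
  · exact conc_fw hd hK hS hδ hδ0 h h1.1 h1.2 hQ
  · obtain ⟨l, m, h2⟩ := conc_fw hd hK hS hδ hδ0 (follow_rev h)
      (by simp only [add_sub_cancel_left]; exact h1.2)
      (by simp only [add_sub_cancel_right]; exact h1.1) hQ
    exact ⟨_, _, conc_rev h2⟩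

end Vale.Agent.P155.TL
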