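import Vale.Agent.P155.TL801.Conv

/-!
# P155, literal Q1, TL (C): lower bound for the tops
-/

namespace Vale.Agent.P155.TL

open Set Topology Filter Vale.Agent.P155 Vale.Agent.P155.Q1

/-- `x` is not a local extremum value of `e` -/
def NE (e : ℝ → ℝ) (x : ℝ) : Prop := ∀ τ, e τ = x → ∀ η : ℝ, 0 < η →
  (∃ τ1, |τ1 - τ| < η ∧ e τ1 < x) ∧ ∃ τ2, |τ2 - τ| < η ∧ x < e τ2

theorem countable_not_NE (e : ℝ → ℝ) : {x | ¬ NE e x}.Countable := by
  have : {x | ¬ NE e x} ⊆ (Set.range fun p : ℚ × ℚ => sInf (e '' Ioo (p.1 : ℝ) p.2)) ∪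
      Set.range fun p : ℚ × ℚ => sSup (e '' Ioo (p.1 : ℝ) p.2) := by
    intro x hx
    have hx' : ¬ NE e x := hx
    unfold NE at hx'
    push Not at hx'
    obtain ⟨τ, hτ, η, hη, h⟩ := hx'
    obtain ⟨u, hu1, hu2⟩ := exists_rat_btwn (show τ - η < τ by linarith)
    obtain ⟨v, hv1, hv2⟩ := exists_rat_btwn (show τ < τ + η by linarith)
    have hmem : x ∈ e '' Ioo (u : ℝ) v := ⟨τ, ⟨hu2, hv1⟩, hτ⟩
    have hin : ∀ z ∈ Ioo (u : ℝ) v, |z - τ| < η := by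
      intro z hz
      rw [abs_lt]
      constructor <;> linarith [hz.1, hz.2]
    by_cases h1 : ∃ τ1, |τ1 - τ| < η ∧ e τ1 < x
    · right
      have h2 := h h1
      refine ⟨(u, v), ?_⟩
      apply le_antisymm
      · apply csSup_le ⟨x, hmem⟩
        rintro _ ⟨z, hz, rfl⟩
        exact h2 z (hin z hz)
      · exact le_csSup ⟨x, by rintro _ ⟨z, hz, rfl⟩; exact h2 z (hin z hz)⟩ hmem
    · left
      push Not at h1
      refine ⟨(u, v), ?_⟩
      apply le_antisymm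
      · exact csInf_le ⟨x, by rintro _ ⟨z, hz, rfl⟩; exact h1 z (hin z hz)⟩ hmem
      · apply le_csInf ⟨x, hmem⟩
        rintro _ ⟨z, hz, rfl⟩
        exact h1 z (hin z hz)
  exact ((Set.countable_range _).union (Set.countable_range _)).mono this

/-- a passage from `lo` to `hi` inside `[lo, hi]` -/
theorem passage {G : ℝ → ℝ} (hG : Continuous G) {u v lo hi : ℝ} (huv : u < v) (h0 : G u < lo)
    (hlh : lo < hi) (h1 : hi < G v) :
    ∃ x1 x2, u ≤ x1 ∧ x1 ≤ x2 ∧ x2 ≤ v ∧ G x1 = lo ∧ G x2 = hi ∧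
      ∀ x ∈ Icc x1 x2, G x ∈ Icc lo hi := by
  obtain ⟨x2, h2, h3, h4, h5⟩ := first_hit hG.continuousOn huv (h0.trans hlh) h1
  have hG' : Continuous fun x => -G (u + x2 - x) := by fun_prop
  obtain ⟨z, h6, h7, h8, h9⟩ := first_hit (e := fun x => -G (u + x2 - x)) (a := u) (b := x2)
    (r := -lo) hG'.continuousOn h2 (by
      simp only [add_sub_cancel_left]
      linarith) (by
      simp only [add_sub_cancel_right]
      linarith)
  simp only [neg_inj, neg_lt_neg_iff] at h8 h9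
  refine ⟨u + x2 - z, x2, by linarith, by linarith, h3.le, h8, h4, fun x hx => ⟨?_, ?_⟩⟩
  · rcases hx.1.lt_or_eq with h | h
    · have := h9 (u + x2 - x) ⟨by linarith [hx.2], by linarith⟩
      rw [show u + x2 - (u + x2 - x) = x by ring] at this
      exact this.le
    · rw [← h, h8]
  · rcases hx.2.lt_or_eq with h | h
    · exact (h5 x ⟨by linarith [hx.1], h⟩).le
    · rw [h, h4]

/-- lower bound for the top -/
theorem lt_top {d : Dir} (hd : IsDir d) {K : ℝ → ℂ} {a b : ℝ}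
    {r0 r1 A' B s0 s1 δ : ℝ} {A : ℂ} {y : ℤ → Pt} {g : ℝ → ℝ} {s t : ℝ} {θ : ℝ → ℝ} {ε : ℝ}
    (h : One K a b δ A y g s t θ ε) {l0 l1 : ℤ}
    (hs : Str d δ A y g s t θ r0 r1 s0 s1 A' B l0 l1) {x lo hi c M : ℝ}
    (h0 : g (θ l0) < lo) (hlh : lo < hi) (h1 : hi < g (θ l1)) (hc : ε + δ < c)
    (hx : (d.P (K lo) < x - c ∧ x + c < d.P (K hi)) ∨ (x + c < d.P (K lo) ∧ d.P (K hi) < x - c))
    (hM : ∀ τ ∈ Icc lo hi, M < d.Q (K τ)) :
    M - ε < δ * (topY d.p d.q y l0 (l1 - l0).toNat (col d δ A x) : ℝ) + d.Q A := by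
  have hδ := h.hδ
  have hcol1 := col_le (d := d) hδ A x
  have hcol2 := lt_col (d := d) hδ A x
  have hl : (l0 : ℝ) < l1 := by exact_mod_cast hs.lt
  obtain ⟨x1, x2, k1, k2, k3, k4, k5, k6⟩ := passage (h.gc.comp h.cont) hl h0 hlh h1
  simp only [Function.comp_apply] at k4 k5 k6
  have hmem : ∀ z : ℝ, (l0 : ℝ) ≤ z → z ≤ l1 → θ z ∈ Icc s t := fun z h1 h2 =>
    ⟨hs.hs.trans (h.mono.monotone h1), (h.mono.monotone h2).trans hs.ht⟩
  have hst : ∀ i, |(fun l => d.p (y l)) (i + 1) - (fun l => d.p (y l)) i| ≤ 1 := steps hd h.adj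
  have p1 := One.closeP hd h (hmem x1 k1 (k2.trans k3))
  have p2 := One.closeP hd h (hmem x2 (k1.trans k2) k3)
  rw [k4, abs_le] at p1
  rw [k5, abs_le] at p2
  have key : ∃ i : ℤ, x1 ≤ i ∧ (i : ℝ) + 1 ≤ x2 ∧
      ((d.p (y i) = col d δ A x ∧ d.p (y (i + 1)) = col d δ A x + 1) ∨
        (d.p (y i) = col d δ A x + 1 ∧ d.p (y (i + 1)) = col d δ A x)) := by
    rcases hx with ⟨hx1, hx2⟩ | ⟨hx1, hx2⟩
    · have e1 : ip (fun l => d.p (y l)) x1 < col d δ A x := by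
        refine lt_of_mul_lt_mul_left ?_ hδ.le
        nlinarith [p1.1, p1.2]
      have e2 : (col d δ A x : ℝ) + 1 < ip (fun l => d.p (y l)) x2 := by
        refine lt_of_mul_lt_mul_left ?_ hδ.le
        nlinarith [p2.1, p2.2]
      obtain ⟨i, i1, i2, i3, i4⟩ := cross (f := fun l => d.p (y l)) hst k2 e1 e2
      exact ⟨i, i1, i2, Or.inl ⟨i3, i4⟩⟩
    · have e1 : (col d δ A x : ℝ) + 1 < ip (fun l => d.p (y l)) x1 := by
        refine lt_of_mul_lt_mul_left ?_ hδ.le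
        nlinarith [p1.1, p1.2]
      have e2 : ip (fun l => d.p (y l)) x2 < col d δ A x := by
        refine lt_of_mul_lt_mul_left ?_ hδ.le
        nlinarith [p2.1, p2.2]
      obtain ⟨i, i1, i2, i3, i4⟩ := cross' (f := fun l => d.p (y l)) hst k2 e1 e2
      exact ⟨i, i1, i2, Or.inr ⟨i3, i4⟩⟩
  obtain ⟨i, i1, i2, i3⟩ := key
  have j1 : l0 ≤ i := by exact_mod_cast k1.trans i1
  have j2 : i + 1 ≤ l1 := by
    have : ((i + 1 : ℤ) : ℝ) ≤ l1 := by push_cast; exact i2.trans k3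
    exact_mod_cast this
  have hY := le_topY hs.strand (mem_TS hd h.adj j1 j2 i3)
  have hY' : (d.q (y i) : ℝ) ≤ topY d.p d.q y l0 (l1 - l0).toNat (col d δ A x) := by
    exact_mod_cast hY
  have hQ := One.closeQ hd h (hmem i (k1.trans i1) (by linarith))
  have hMi := hM _ (k6 i ⟨i1, by linarith⟩)
  rw [abs_le] at hQ
  nlinarith [hQ.1]

/-- the strand starts before `lo` -/
theorem start_lt {d : Dir} (hd : IsDir d) {K : ℝ → ℂ} {a b : ℝ}
    {r0 r1 A' B s0 s1 δ : ℝ} {A : ℂ} {y : ℤ → Pt} {g : ℝ → ℝ} {s t : ℝ} {θ : ℝ → ℝ} {ε : ℝ}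
    (h : One K a b δ A y g s t θ ε) {l0 l1 : ℤ}
    (hs : Str d δ A y g s t θ r0 r1 s0 s1 A' B l0 l1) {lo c : ℝ} (hc : ε < c)
    (hlo : ∀ τ ∈ Icc lo B, r0 + c < d.P (K τ)) : g (θ l0) < lo := by
  have hl : (l0 : ℝ) ≤ l1 := by exact_mod_cast hs.lt.le
  by_contra hcon
  rw [not_lt] at hcon
  have h1 := hlo _ ⟨hcon, (hs.rng l0 le_rfl hl).2⟩
  have h2 := One.closeP hd h (x := l0) ⟨hs.hs, (h.mono.monotone hl).trans hs.ht⟩
  rw [ip_int, hs.f0, abs_le] at h2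
  have h3 : d.P A + δ * (d.lp δ A r0 : ℝ) ≤ r0 := le_lp h.hδ le_rfl
  linarith [h2.1]

/-- the strand ends after `hi` -/
theorem lt_end {d : Dir} (hd : IsDir d) {K : ℝ → ℂ} {a b : ℝ}
    {r0 r1 A' B s0 s1 δ : ℝ} {A : ℂ} {y : ℤ → Pt} {g : ℝ → ℝ} {s t : ℝ} {θ : ℝ → ℝ} {ε : ℝ}
    (h : One K a b δ A y g s t θ ε) {l0 l1 : ℤ}
    (hs : Str d δ A y g s t θ r0 r1 s0 s1 A' B l0 l1) {hi c : ℝ} (hc : ε + δ < c)
    (hhi : ∀ τ ∈ Icc a hi, d.P (K τ) < r1 - c) : hi < g (θ l1) := by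
  have hl : (l0 : ℝ) ≤ l1 := by exact_mod_cast hs.lt.le
  have hmem : θ l1 ∈ Icc s t := ⟨hs.hs.trans (h.mono.monotone hl), hs.ht⟩
  by_contra hcon
  rw [not_lt] at hcon
  have h1 := hhi _ ⟨(h.gmem _ hmem).1, hcon⟩
  have h2 := One.closeP hd h hmem
  rw [ip_int, hs.f1, abs_le] at h2
  have h3 : r1 - δ < d.P A + δ * (d.lp δ A r1 : ℝ) := lp_le h.hδ le_rfl
  linarith [h2.2]

end Vale.Agent.P155.TL
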