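import Vale.Agent.P155.TL801.Fam

/-!
# P155, literal Q1, TL: two families (dominated convergence) and the theorem TL
-/

namespace Vale.Agent.P155.TL

open Set Topology Filter MeasureTheory Vale.Agent.P155 Vale.Agent.P155.Q1

theorem col_iff {d : Dir} {δ : ℝ} (hδ : 0 < δ) (A : ℂ) (x : ℝ) (X : ℤ) :
    col d δ A x = X ↔ x ∈ Ico (d.P A + δ * X) (d.P A + δ * (X + 1)) := by
  unfold col Dir.lp
  rw [Int.floor_eq_iff, le_div_iff₀ hδ, div_lt_iff₀ hδ, mem_Ico]
  constructor
  · rintro ⟨h1, h2⟩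
    constructor <;> nlinarith
  · rintro ⟨h1, h2⟩
    constructor <;> nlinarith

theorem measurable_col (d : Dir) (δ : ℝ) (A : ℂ) : Measurable (col d δ A) := by
  unfold col Dir.lp
  exact Int.measurable_floor.comp (by fun_prop)

/-- the step function of a function of the columns -/
noncomputable def phi (d : Dir) (δ : ℝ) (A : ℂ) (n0 n1 : ℤ) (F : ℤ → ℝ) (x : ℝ) : ℝ :=
  if col d δ A x ∈ Finset.Ico n0 n1 then δ * F (col d δ A x) else 0

theorem measurable_phi (d : Dir) (δ : ℝ) (A : ℂ) (n0 n1 : ℤ) (F : ℤ → ℝ) :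
    Measurable (phi d δ A n0 n1 F) := by
  have h : Measurable fun n : ℤ => if n ∈ Finset.Ico n0 n1 then δ * F n else 0 :=
    measurable_of_countable _
  exact h.comp (measurable_col d δ A)

theorem integral_phi {d : Dir} {δ : ℝ} (hδ : 0 < δ) (A : ℂ) (n0 n1 : ℤ) (F : ℤ → ℝ) :
    ∫ x, phi d δ A n0 n1 F x = δ ^ 2 * ∑ X ∈ Finset.Ico n0 n1, F X := by
  have e : phi d δ A n0 n1 F = fun x => ∑ X ∈ Finset.Ico n0 n1,
      (Ico (d.P A + δ * X) (d.P A + δ * (X + 1))).indicator (fun _ => δ * F X) x := by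
    funext x
    have : ∀ X : ℤ, (Ico (d.P A + δ * X) (d.P A + δ * (X + 1))).indicator (fun _ => δ * F X) x =
        if col d δ A x = X then δ * F X else 0 := by
      intro X
      rw [Set.indicator_apply]
      simp only [col_iff hδ]
    simp only [this]
    rw [Finset.sum_ite_eq]
    rfl
  rw [e, integral_finsetSum]
  · rw [Finset.mul_sum]
    apply Finset.sum_congr rfl
    intro X _
    rw [integral_indicator_const _ measurableSet_Ico, Real.volume_real_Ico_of_le (by nlinarith),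
      smul_eq_mul]
    ring
  · intro X _
    refine (integrable_indicator_iff measurableSet_Ico).2 ?_
    exact integrableOn_const (by simp) enorm_ne_top

section

variable {d : Dir} {K : ℝ → ℂ} {r0 r0' r1' r1 s0 s1 : ℝ} {Tf : ℝ → ℝ}
  {δ : ℕ → ℝ} {A : ℕ → ℂ} {y y' : ℕ → ℤ → Pt} {s t s' t' : ℝ} {θ θ' : ℕ → ℝ → ℝ}
  {l l' : ℕ → ℤ} {m m' : ℕ → ℕ}

theorem lq_diff {δ : ℝ} (hδ : 0 < δ) (A : ℂ) :
    δ * ((d.lq δ A s1 : ℝ) - d.lq δ A s0) ≤ s1 - s0 + δ := by
  unfold Dir.lq
  have h1 := Int.floor_le ((s1 - d.Q A) / δ)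
  have h2 := Int.sub_one_lt_floor ((s0 - d.Q A) / δ)
  rw [le_div_iff₀ hδ] at h1
  have h3 : (s0 - d.Q A) / δ < (⌊(s0 - d.Q A) / δ⌋ : ℝ) + 1 := by linarith
  rw [div_lt_iff₀ hδ] at h3
  nlinarith

theorem pair (l0 : r0 < r0') (l2 : r1' < r1) (hδ : ∀ j, 0 < δ j)
    (hδ0 : Tendsto δ atTop (𝓝 0))
    (h : Conc d K r0 r0' r1' r1 s0 s1 Tf δ A y s t θ l m)
    (h' : Conc d K r0 r0' r1' r1 s0 s1 Tf δ A y' s' t' θ' l' m') :
    Tendsto (fun j => (δ j) ^ 2 * ∑ X ∈ Finset.Ico (d.lp (δ j) (A j) r0')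
      (d.lp (δ j) (A j) r1'), |(topY d.p d.q (y j) (l j) (m j) X : ℝ) -
        topY d.p d.q (y' j) (l' j) (m' j) X|) atTop (𝓝 0) := by
  set F : ℕ → ℤ → ℝ := fun j X => |(topY d.p d.q (y j) (l j) (m j) X : ℝ) -
        topY d.p d.q (y' j) (l' j) (m' j) X| with hF
  have e : ∀ j, (δ j) ^ 2 * ∑ X ∈ Finset.Ico (d.lp (δ j) (A j) r0') (d.lp (δ j) (A j) r1'),
      F j X = ∫ x, phi d (δ j) (A j) (d.lp (δ j) (A j) r0') (d.lp (δ j) (A j) r1') (F j) x :=
    fun j => (integral_phi (hδ j) _ _ _ _).symm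
  refine Tendsto.congr (fun j => (e j).symm) ?_
  have e0 : (0 : ℝ) = ∫ _ : ℝ, (0 : ℝ) := by simp
  rw [e0]
  refine tendsto_integral_filter_of_dominated_convergence
    ((Icc (r0' - 1) r1').indicator fun _ => s1 - s0 + 1) ?_ ?_ ?_ ?_
  · exact Eventually.of_forall fun j => (measurable_phi _ _ _ _ _ _).aestronglyMeasurable
  · filter_upwards [h.strand, h'.strand, h.ne, h'.ne, ev_small hδ0 one_pos] with j a1 a2 a3 a4 a5
    refine Eventually.of_forall fun x => ?_
    have hδj := hδ j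
    unfold phi
    split_ifs with hx
    · rw [Finset.mem_Ico] at hx
      have b1 := col_le (d := d) hδj (A j) x
      have b2 := lt_col (d := d) hδj (A j) x
      have b3 : r0' - δ j < d.P (A j) + δ j * (col d (δ j) (A j) x : ℝ) :=
        lp_le hδj (by exact_mod_cast hx.1)
      have b4 : d.P (A j) + δ j * ((col d (δ j) (A j) x : ℝ) + 1) ≤ r1' := by
        apply le_lp hδj
        have : col d (δ j) (A j) x + 1 ≤ d.lp (δ j) (A j) r1' := hx.2
        exact_mod_cast this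
      have c0 : d.lp (δ j) (A j) r0 ≤ col d (δ j) (A j) x := by
        refine le_trans (Int.floor_le_floor ?_) hx.1
        gcongr
      have c1 : col d (δ j) (A j) x < d.lp (δ j) (A j) r1 := by
        refine lt_of_lt_of_le hx.2 (Int.floor_le_floor ?_)
        gcongr
      rw [Set.indicator_of_mem (by constructor <;> linarith)]
      have m1 := TS_sub a1.1 _ (topY_mem a1.1 (a3 _ c0 c1))
      have m2 := TS_sub a2.1 _ (topY_mem a2.1 (a4 _ c0 c1))
      have m1a : (d.lq (δ j) (A j) s0 : ℝ) ≤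
        topY d.p d.q (y j) (l j) (m j) (col d (δ j) (A j) x) := by exact_mod_cast m1.1
      have m1b : (topY d.p d.q (y j) (l j) (m j) (col d (δ j) (A j) x) : ℝ) ≤
        d.lq (δ j) (A j) s1 := by exact_mod_cast m1.2
      have m2a : (d.lq (δ j) (A j) s0 : ℝ) ≤
        topY d.p d.q (y' j) (l' j) (m' j) (col d (δ j) (A j) x) := by exact_mod_cast m2.1
      have m2b : (topY d.p d.q (y' j) (l' j) (m' j) (col d (δ j) (A j) x) : ℝ) ≤
        d.lq (δ j) (A j) s1 := by exact_mod_cast m2.2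
      have hd1 := lq_diff (d := d) (s0 := s0) (s1 := s1) hδj (A j)
      have hFle : F j (col d (δ j) (A j) x) ≤ (d.lq (δ j) (A j) s1 : ℝ) - d.lq (δ j) (A j) s0 := by
        simp only [hF]
        rw [abs_le]
        constructor <;> linarith
      have hF0 : 0 ≤ F j (col d (δ j) (A j) x) := abs_nonneg _
      rw [Real.norm_eq_abs, abs_of_nonneg (mul_nonneg hδj.le hF0)]
      have := mul_le_mul_of_nonneg_left hFle hδj.le
      linarith
    · rw [norm_zero]
      obtain ⟨q1, q2⟩ := a1.1.qmem 0 (Nat.zero_le _)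
      have hle : (0 : ℝ) ≤ (d.lq (δ j) (A j) s1 : ℝ) - d.lq (δ j) (A j) s0 := by
        have : d.lq (δ j) (A j) s0 ≤ d.lq (δ j) (A j) s1 := q1.trans q2
        have : (d.lq (δ j) (A j) s0 : ℝ) ≤ d.lq (δ j) (A j) s1 := by exact_mod_cast this
        linarith
      have hd1 := lq_diff (d := d) (s0 := s0) (s1 := s1) hδj (A j)
      have := mul_nonneg hδj.le hle
      apply Set.indicator_nonneg
      intro _ _
      linarith
  · refine (integrable_indicator_iff measurableSet_Icc).2 ?_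
    exact integrableOn_const (by simp) enorm_ne_top
  · have hnull : volume ({x | ¬ NE (fun τ => d.P (K τ)) x} ∪ {r0', r1'}) = 0 :=
      ((countable_not_NE _).union ((Set.finite_singleton r1').insert r0').countable).measure_zero
        volume
    have hae : ∀ᵐ x : ℝ, x ∉ {x | ¬ NE (fun τ => d.P (K τ)) x} ∪ {r0', r1'} :=
      compl_mem_ae_iff.2 hnull
    filter_upwards [hae] with x hx
    simp only [mem_union, mem_ofPred_eq, mem_insert_iff, mem_singleton_iff, not_or, not_not] at hx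
    obtain ⟨hNE, hx0, hx1⟩ := hx
    rcases lt_or_gt_of_ne hx0 with h1 | h1
    · -- left of the columns
      apply tendsto_const_nhds.congr'
      filter_upwards [ev_small hδ0 (sub_pos.2 h1)] with j hj
      have hδj := hδ j
      unfold phi
      rw [if_neg]
      rw [Finset.mem_Ico]
      rintro ⟨h2, -⟩
      have b1 := col_le (d := d) hδj (A j) x
      have b3 : r0' - δ j < d.P (A j) + δ j * (col d (δ j) (A j) x : ℝ) :=
        lp_le hδj (by exact_mod_cast h2)
      linarith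
    · rcases lt_or_gt_of_ne hx1 with h2 | h2
      · have hl := (h.lim x ⟨h1, h2⟩ hNE).sub (h'.lim x ⟨h1, h2⟩ hNE)
        rw [sub_self] at hl
        have hl' := hl.abs
        rw [abs_zero] at hl'
        refine squeeze_zero_norm' (Eventually.of_forall fun j => ?_) hl'
        have hδj := hδ j
        unfold phi
        split_ifs with hx
        · simp only [hF]
          rw [Real.norm_eq_abs, abs_mul, abs_of_pos hδj, abs_abs]
          rw [show δ j * (topY d.p d.q (y j) (l j) (m j) (col d (δ j) (A j) x) : ℝ) + d.Q (A j) -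
            (δ j * (topY d.p d.q (y' j) (l' j) (m' j) (col d (δ j) (A j) x) : ℝ) + d.Q (A j)) =
            δ j * ((topY d.p d.q (y j) (l j) (m j) (col d (δ j) (A j) x) : ℝ) -
              topY d.p d.q (y' j) (l' j) (m' j) (col d (δ j) (A j) x)) by ring, abs_mul,
            abs_of_pos hδj]
        · rw [norm_zero]
          exact abs_nonneg _
      · -- right of the columns
        apply tendsto_const_nhds.congr'
        refine Eventually.of_forall fun j => ?_
        have hδj := hδ j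
        unfold phi
        beta_reduce
        rw [if_neg]
        rw [Finset.mem_Ico]
        rintro ⟨-, h3⟩
        have : d.lp (δ j) (A j) r1' ≤ col d (δ j) (A j) x := by
          refine Int.floor_le_floor ?_
          gcongr
        omega

end

theorem follow_curve_rev {K : ℝ → ℂ} {a b : ℝ} {δ : ℕ → ℝ} {A : ℕ → ℂ} {y : ℕ → ℤ → Pt}
    {g : ℝ → ℝ} {s t : ℝ} {θ : ℕ → ℝ → ℝ} (h : Follow K a b δ A y g s t θ) :
    Follow (fun x => K (a + b - x)) a b δ A y (fun x => a + b - g x) s t θ := by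
  have hgc := h.gc
  refine ⟨h.adj, h.st, by fun_prop, ?_, ?_, h.cont, h.mono, h.surj, ?_⟩
  · intro x hx
    have := h.gmem x hx
    exact ⟨by linarith [this.2], by linarith [this.1]⟩
  · rcases h.gends with h1 | h1
    · exact Or.inr ⟨by rw [h1.1]; ring, by rw [h1.2]; ring⟩
    · exact Or.inl ⟨by rw [h1.1]; ring, by rw [h1.2]; ring⟩
  · intro ε hε
    filter_upwards [h.close ε hε] with j hj x hx
    simp only [sub_sub_cancel]
    exact hj x hx

/-- the statement TL for curves with `P (K a) < P (K b)` -/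
theorem tl_fw {d : Dir} (hd : IsDir d) {K : ℝ → ℂ} {a b : ℝ} (hab : a < b) (hK : Continuous K)
    (hP : d.P (K a) < d.P (K b)) {s0 s1 : ℝ}
    (hQ : ∀ x ∈ Icc a b, s0 < d.Q (K x) ∧ d.Q (K x) < s1) :
    ∃ r0 r0' r1' r1 : ℚ, r0 < r0' ∧ r0' < r1' ∧ r1' < r1 ∧ d.P (K a) < r0 ∧
      (r1 : ℝ) < d.P (K b) ∧ ∀ (δ : ℕ → ℝ) (A : ℕ → ℂ), (∀ j, 0 < δ j) →
      Tendsto δ atTop (𝓝 0) → ∀ y g s t θ y' g' s' t' θ', Follow K a b δ A y g s t θ →
      Follow K a b δ A y' g' s' t' θ' → ∀ α : ℝ, 0 < α → ∀ᶠ j in atTop, ∃ l m l' m',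
      StrandY d.p d.q (y j) (d.lp (δ j) (A j) r0) (d.lp (δ j) (A j) r1) (d.lq (δ j) (A j) s0)
        (d.lq (δ j) (A j) s1) l m ∧ s ≤ θ j l ∧ θ j (l + m) ≤ t ∧
      StrandY d.p d.q (y' j) (d.lp (δ j) (A j) r0) (d.lp (δ j) (A j) r1) (d.lq (δ j) (A j) s0)
        (d.lq (δ j) (A j) s1) l' m' ∧ s' ≤ θ' j l' ∧ θ' j (l' + m') ≤ t' ∧
      (δ j) ^ 2 * ∑ X ∈ Finset.Ico (d.lp (δ j) (A j) r0') (d.lp (δ j) (A j) r1'),
        |(topY d.p d.q (y j) l m X : ℝ) - topY d.p d.q (y' j) l' m' X| < α := by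
  have hPc : Continuous fun x => d.P (K x) := hd.P_cont.comp hK
  obtain ⟨r0, r0', r1', r1, A', α, β, B, hS⟩ := exists_sel hPc hab hP
  refine ⟨r0, r0', r1', r1, by exact_mod_cast hS.l0, by exact_mod_cast hS.l1,
    by exact_mod_cast hS.l2, hS.ea, hS.eb, ?_⟩
  intro δ A hδ hδ0 y g s t θ y' g' s' t' θ' h h' ε hε
  obtain ⟨l, m, hC⟩ := conc_all hd hK hS hδ hδ0 h hQ
  obtain ⟨l', m', hC'⟩ := conc_all hd hK hS hδ hδ0 h' hQ
  have hp := pair hS.l0 hS.l2 hδ hδ0 hC hC'
  filter_upwards [hC.strand, hC'.strand, hp.eventually (gt_mem_nhds hε)] with j h1 h2 h3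
  exact ⟨l j, m j, l' j, m' j, h1.1, h1.2.1, h1.2.2, h2.1, h2.2.1, h2.2.2, h3⟩

/-- **TL** -/
theorem tl : Q1.TL := by
  intro d hd K a b hab hK hP s0 s1 hQ
  have hD := isDir hd
  rcases lt_or_gt_of_ne hP with h | h
  · obtain ⟨r0, r0', r1', r1, h1, h2, h3, h4, h5, h6⟩ := tl_fw hD hab hK h hQ
    refine ⟨r0, r0', r1', r1, h1, h2, h3, ?_, ?_, h6⟩
    · rw [min_eq_left h.le]
      exact h4
    · rw [max_eq_right h.le]
      exact h5
  · have hK' : Continuous fun x => K (a + b - x) := by fun_prop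
    obtain ⟨r0, r0', r1', r1, h1, h2, h3, h4, h5, h6⟩ := tl_fw (K := fun x => K (a + b - x))
      (s0 := s0) (s1 := s1) hD hab hK'
      (by simp only [add_sub_cancel_left, add_sub_cancel_right]; exact h)
      (fun x hx => hQ _ ⟨by linarith [hx.2], by linarith [hx.1]⟩)
    simp only [add_sub_cancel_left] at h4
    simp only [add_sub_cancel_right] at h5
    refine ⟨r0, r0', r1', r1, h1, h2, h3, ?_, ?_, ?_⟩
    · rw [min_eq_right h.le]
      exact h4
    · rw [max_eq_left h.le]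
      exact h5
    · intro δ A hδ hδ0 y g s t θ y' g' s' t' θ' hf hf' ε hε
      exact h6 δ A hδ hδ0 y _ s t θ y' _ s' t' θ' (follow_curve_rev hf) (follow_curve_rev hf') ε hε

end Vale.Agent.P155.TL
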