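import Mathlib

/-!
# P155, literal Q1, TL (A): choice of the rectangle
-/

namespace Vale.Agent.P155.TL

open Set

/-- first hitting time of the value `r` -/
theorem first_hit {e : ℝ → ℝ} {a b r : ℝ} (he : ContinuousOn e (Icc a b)) (hab : a < b)
    (ha : e a < r) (hb : r < e b) :
    ∃ β, a < β ∧ β < b ∧ e β = r ∧ ∀ x ∈ Ico a β, e x < r := by
  set S : Set ℝ := Icc a b ∩ e ⁻¹' Ici r with hS
  have hcl : IsClosed S := he.preimage_isClosed_of_isClosed isClosed_Icc isClosed_Ici
  have hne : S.Nonempty := ⟨b, ⟨hab.le, le_rfl⟩, hb.le⟩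
  have hbd : BddBelow S := ⟨a, fun x hx => hx.1.1⟩
  have hmem : sInf S ∈ S := hcl.csInf_mem hne hbd
  set β := sInf S with hβ
  have hlt : ∀ x ∈ Ico a β, e x < r := by
    intro x hx
    by_contra h
    have hxS : x ∈ S := ⟨⟨hx.1, hx.2.le.trans hmem.1.2⟩, not_lt.1 h⟩
    exact absurd (csInf_le hbd hxS) (not_le.2 hx.2)
  have haβ : a < β := by
    rcases hmem.1.1.lt_or_eq with h | h
    · exact h
    · have h2 : r ≤ e β := hmem.2
      rw [← h] at h2
      exact absurd ha (not_lt.2 h2)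
  have heq : e β = r := by
    have hr : r ∈ Icc (e a) (e β) := ⟨ha.le, hmem.2⟩
    obtain ⟨x, hx, hxr⟩ := intermediate_value_Icc hmem.1.1
      (he.mono (Icc_subset_Icc_right hmem.1.2)) hr
    rcases hx.2.lt_or_eq with h | h
    · exact absurd (hlt x ⟨hx.1, h⟩) (by rw [hxr]; exact lt_irrefl _)
    · rw [← h]; exact hxr
  refine ⟨β, haβ, ?_, heq, hlt⟩
  rcases hmem.1.2.lt_or_eq with h | h
  · exact h
  · rw [h] at heq
    exact absurd heq (ne_of_gt hb)

/-- A rational level which is exceeded soon after it is reached. -/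
theorem sel_right {e : ℝ → ℝ} {a b u w : ℝ} (he : ContinuousOn e (Icc a b)) (hab : a < b)
    (hu : e a < u) (huw : u < w) (hw : w ≤ e b) :
    ∃ r : ℚ, u < r ∧ (r : ℝ) < w ∧ ∃ β B, a < β ∧ β < B ∧ B ≤ b ∧ e β = r ∧
      (∀ x ∈ Ico a β, e x < r) ∧ (r : ℝ) < e B ∧ ∀ x ∈ Icc β B, u < e x := by
  obtain ⟨κ, hκ, huc⟩ := Metric.uniformContinuousOn_iff.1
    (isCompact_Icc.uniformContinuousOn_of_continuous he) ((w - u) / 2) (by linarith)
  by_contra hcon
  push Not at hcon
  -- every rational level in the upper half is a plateau of length `κ / 2`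
  have key : ∀ r : ℚ, (u + w) / 2 < r → (r : ℝ) < w → ∀ β, a < β → β < b → e β = r →
      (∀ x ∈ Ico a β, e x < r) → β + κ / 2 < b ∧ ∀ x ∈ Icc a (β + κ / 2), e x ≤ r := by
    intro r hr1 hr2 β h1 h2 h3 h4
    have h5 : ∀ x ∈ Icc a b, x ≤ β + κ / 2 → e x ≤ r := by
      intro x hx hxβ
      rcases lt_or_ge x β with h | h
      · exact (h4 x ⟨hx.1, h⟩).le
      · by_contra hlt
        rw [not_le] at hlt
        have hβx : β < x := by
          rcases h.lt_or_eq with h' | h'
          · exact h'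
          · rw [← h', h3] at hlt
            exact absurd hlt (lt_irrefl _)
        obtain ⟨z, hz, hz2⟩ := hcon r (by linarith) hr2 β x h1 hβx hx.2 h3 h4 hlt
        have hzab : z ∈ Icc a b := ⟨h1.le.trans hz.1, hz.2.trans hx.2⟩
        have := huc z hzab β ⟨h1.le, h2.le⟩ (by
          rw [Real.dist_eq, abs_lt]
          constructor <;> linarith [hz.1, hz.2])
        rw [Real.dist_eq, abs_lt, h3] at this
        linarith [this.1]
    have h6 : β + κ / 2 < b := by
      by_contra hle
      rw [not_lt] at hle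
      have := h5 b ⟨hab.le, le_rfl⟩ hle
      linarith
    exact ⟨h6, fun x hx => h5 x ⟨hx.1, hx.2.trans h6.le⟩ hx.2⟩
  -- a strictly increasing sequence of rationals
  have hseq : ∀ n : ℕ, ∃ r : ℚ, (u + w) / 2 < r ∧ (r : ℝ) < w ∧ ∃ β, a < β ∧ β < b ∧ e β = r ∧
      (∀ x ∈ Ico a β, e x < r) ∧ a + n * (κ / 2) ≤ β := by
    intro n
    induction n with
    | zero =>
      obtain ⟨r, hr1, hr2⟩ := exists_rat_btwn (show (u + w) / 2 < w by linarith)
      obtain ⟨β, h1, h2, h3, h4⟩ := first_hit he hab (show e a < r by linarith)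
        (show (r : ℝ) < e b by linarith)
      exact ⟨r, hr1, hr2, β, h1, h2, h3, h4, by simpa using h1.le⟩
    | succ n ih =>
      obtain ⟨r, hr1, hr2, β, h1, h2, h3, h4, h5⟩ := ih
      obtain ⟨r', hr1', hr2'⟩ := exists_rat_btwn hr2
      obtain ⟨β', h1', h2', h3', h4'⟩ := first_hit he hab (show e a < r' by linarith)
        (show (r' : ℝ) < e b by linarith)
      obtain ⟨-, h7⟩ := key r hr1 hr2 β h1 h2 h3 h4
      refine ⟨r', by linarith, hr2', β', h1', h2', h3', h4', ?_⟩
      by_contra hlt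
      rw [not_le] at hlt
      push_cast at hlt
      have := h7 β' ⟨h1'.le, by linarith⟩
      rw [h3'] at this
      linarith
  obtain ⟨n, hn⟩ := exists_nat_gt ((b - a) / (κ / 2))
  obtain ⟨r, -, -, β, -, h2, -, -, h5⟩ := hseq n
  rw [div_lt_iff₀ (by positivity)] at hn
  linarith

/-- The data of the choice of the rectangle: `α` is the last time before `β` at which `e = r0`,
`β` is the first time at which `e = r1`, the level `r1` is exceeded at `B`, the function stays above
`r1'` between `β` and `B`; symmetric properties on the left. -/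
structure Sel (e : ℝ → ℝ) (a b r0 r0' r1' r1 A' α β B : ℝ) : Prop where
  l0 : r0 < r0'
  l1 : r0' < r1'
  l2 : r1' < r1
  aA : a ≤ A'
  Aα : A' < α
  αβ : α < β
  βB : β < B
  Bb : B ≤ b
  ea : e a < r0
  eb : r1 < e b
  eβ : e β = r1
  lt1 : ∀ x ∈ Ico a β, e x < r1
  eB : r1 < e B
  gt1 : ∀ x ∈ Icc β B, r1' < e x
  eα : e α = r0
  gt0 : ∀ x ∈ Ioc α β, r0 < e x
  eA : e A' < r0
  lt0 : ∀ x ∈ Icc A' α, e x < r0'

theorem exists_sel {e : ℝ → ℝ} (he : Continuous e) {a b : ℝ} (hab : a < b) (h : e a < e b) :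
    ∃ r0 r0' r1' r1 : ℚ, ∃ A' α β B : ℝ, Sel e a b r0 r0' r1' r1 A' α β B := by
  obtain ⟨r0', h1, h2⟩ := exists_rat_btwn h
  obtain ⟨r1', h3, h4⟩ := exists_rat_btwn h2
  obtain ⟨r1, h5, h6, β, B, h7, h8, h9, h10, h11, h12, h13⟩ :=
    sel_right (a := a) (b := b) (u := r1') (w := e b) he.continuousOn hab (by linarith) h4 le_rfl
  have he2 : Continuous fun x => -e (a + β - x) := by fun_prop
  obtain ⟨r, k5, k6, β', B', k7, k8, k9, k10, k11, k12, k13⟩ :=
    sel_right (e := fun x => -e (a + β - x)) (a := a) (b := β) (u := -r0') (w := -e a)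
      he2.continuousOn h7 (by
        simp only [add_sub_cancel_left]
        rw [h10]
        linarith) (by linarith) (by simp)
  refine ⟨-r, r0', r1', r1, a + β - B', a + β - β', β, B, ?_⟩
  push_cast
  refine ⟨by linarith, h3, h5, by linarith, by linarith, by linarith, h8, h9, by linarith, h6,
    h10, h11, h12, h13, by linarith, ?_, by linarith, ?_⟩
  · intro x hx
    have := k11 (a + β - x) ⟨by linarith [hx.2], by linarith [hx.1]⟩
    rw [show a + β - (a + β - x) = x by ring] at this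
    linarith
  · intro x hx
    have := k13 (a + β - x) ⟨by linarith [hx.2], by linarith [hx.1]⟩
    rw [show a + β - (a + β - x) = x by ring] at this
    linarith

end Vale.Agent.P155.TL
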