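import Vale.Agent.P155.TL801.Dirs
import Vale.Agent.P155.TL801.Sel

/-!
# P155, literal Q1, TL (B3): existence of the strand
-/

namespace Vale.Agent.P155.TL

open Set Topology Filter Vale.Agent.P155 Vale.Agent.P155.Q1

/-- first hitting time, weak form -/
theorem first_hit' {e : ℝ → ℝ} {a b r : ℝ} (he : Continuous e) (hab : a < b)
    (ha : e a < r) (hb : r ≤ e b) :
    ∃ β, a < β ∧ β ≤ b ∧ e β = r ∧ ∀ x ∈ Ico a β, e x < r := by
  rcases hb.lt_or_eq with h | h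
  · obtain ⟨β, h1, h2, h3, h4⟩ := first_hit he.continuousOn hab ha h
    exact ⟨β, h1, h2.le, h3, h4⟩
  · by_cases hex : ∃ x ∈ Ico a b, r ≤ e x
    · obtain ⟨x, hx, hrx⟩ := hex
      -- the first hitting time is before `x`
      set S : Set ℝ := Icc a b ∩ e ⁻¹' Ici r with hS
      have hcl : IsClosed S := isClosed_Icc.inter (isClosed_Ici.preimage he)
      have hbd : BddBelow S := ⟨a, fun x hx => hx.1.1⟩
      have hmem : sInf S ∈ S := hcl.csInf_mem ⟨b, ⟨hab.le, le_rfl⟩, hb⟩ hbd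
      have hlt : ∀ z ∈ Ico a (sInf S), e z < r := by
        intro z hz
        by_contra hcon
        exact absurd (csInf_le hbd (⟨⟨hz.1, hz.2.le.trans hmem.1.2⟩, not_lt.1 hcon⟩ : z ∈ S))
          (not_le.2 hz.2)
      have haβ : a < sInf S := by
        rcases hmem.1.1.lt_or_eq with h' | h'
        · exact h'
        · have h2 : r ≤ e (sInf S) := hmem.2
          rw [← h'] at h2
          exact absurd ha (not_lt.2 h2)
      refine ⟨sInf S, haβ, hmem.1.2, ?_, hlt⟩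
      obtain ⟨z, hz, hzr⟩ := intermediate_value_Icc hmem.1.1 he.continuousOn
        (⟨ha.le, hmem.2⟩ : r ∈ Icc (e a) (e (sInf S)))
      rcases hz.2.lt_or_eq with h' | h'
      · exact absurd (hlt z ⟨hz.1, h'⟩) (by rw [hzr]; exact lt_irrefl _)
      · rw [← h']
        exact hzr
    · push Not at hex
      exact ⟨b, hab, le_rfl, h.symm, hex⟩

theorem ev_lt {φ : ℝ → ℝ} (hφ : Continuous φ) {u v r : ℝ} (h : ∀ x ∈ Icc u v, φ x < r) :
    ∀ᶠ c in 𝓝[>] (0 : ℝ), ∀ x ∈ Icc u v, φ x < r - c := by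
  rcases (Icc u v).eq_empty_or_nonempty with he | hne
  · rw [he]
    exact Eventually.of_forall fun c x hx => absurd hx (Set.notMem_empty x)
  · obtain ⟨x0, hx0, hmax⟩ := isCompact_Icc.exists_isMaxOn hne hφ.continuousOn
    have h0 : 0 < r - φ x0 := sub_pos.2 (h x0 hx0)
    filter_upwards [Ioo_mem_nhdsGT h0] with c hc x hx
    have : φ x ≤ φ x0 := hmax hx
    linarith [hc.2]

theorem ev_gt {φ : ℝ → ℝ} (hφ : Continuous φ) {u v r : ℝ} (h : ∀ x ∈ Icc u v, r < φ x) :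
    ∀ᶠ c in 𝓝[>] (0 : ℝ), ∀ x ∈ Icc u v, r + c < φ x := by
  have := ev_lt (φ := fun x => -φ x) hφ.neg (u := u) (v := v) (r := -r)
    (fun x hx => neg_lt_neg (h x hx))
  filter_upwards [this] with c hc x hx
  have := hc x hx
  linarith

theorem ev_lt1 {u r : ℝ} (h : u < r) : ∀ᶠ c in 𝓝[>] (0 : ℝ), u < r - c := by
  filter_upwards [Ioo_mem_nhdsGT (sub_pos.2 h)] with c hc
  linarith [hc.2]

/-- A forward following path (one index `j`). -/
structure One (K : ℝ → ℂ) (a b δ : ℝ) (A : ℂ) (y : ℤ → Pt) (g : ℝ → ℝ) (s t : ℝ) (θ : ℝ → ℝ)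
    (ε : ℝ) : Prop where
  hδ : 0 < δ
  adj : ∀ l, Adj (y l) (y (l + 1))
  st : s < t
  gc : Continuous g
  gmem : ∀ x ∈ Icc s t, g x ∈ Icc a b
  gs : g s = a
  gt : g t = b
  cont : Continuous θ
  mono : StrictMono θ
  surj : Function.Surjective θ
  close : ∀ x : ℝ, θ x ∈ Icc s t → dist (poly (fun l => pt δ A (y l)) x) (K (g (θ x))) ≤ ε

/-- The strand between the indices `l0` and `l1`. -/
structure Str (d : Dir) (δ : ℝ) (A : ℂ) (y : ℤ → Pt) (g : ℝ → ℝ) (s t : ℝ) (θ : ℝ → ℝ)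
    (r0 r1 s0 s1 A' B : ℝ) (l0 l1 : ℤ) : Prop where
  lt : l0 < l1
  strand : StrandY d.p d.q y (d.lp δ A r0) (d.lp δ A r1) (d.lq δ A s0) (d.lq δ A s1) l0
    (l1 - l0).toNat
  hs : s ≤ θ l0
  ht : θ l1 ≤ t
  f0 : d.p (y l0) = d.lp δ A r0
  f1 : d.p (y l1) = d.lp δ A r1
  rng : ∀ x : ℝ, (l0 : ℝ) ≤ x → x ≤ l1 → A' ≤ g (θ x) ∧ g (θ x) ≤ B

variable {d : Dir} (hd : IsDir d) {K : ℝ → ℂ} {a b : ℝ}

include hd in
theorem One.closeP {δ : ℝ} {A : ℂ} {y : ℤ → Pt} {g : ℝ → ℝ} {s t : ℝ} {θ : ℝ → ℝ} {ε : ℝ}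
    (h : One K a b δ A y g s t θ ε) {x : ℝ} (hx : θ x ∈ Icc s t) :
    |d.P A + δ * ip (fun l => d.p (y l)) x - d.P (K (g (θ x)))| ≤ ε := by
  rw [← P_poly hd]
  exact (hd.P_lip _ _).trans (h.close x hx)

include hd in
theorem One.closeQ {δ : ℝ} {A : ℂ} {y : ℤ → Pt} {g : ℝ → ℝ} {s t : ℝ} {θ : ℝ → ℝ} {ε : ℝ}
    (h : One K a b δ A y g s t θ ε) {l : ℤ} (hx : θ l ∈ Icc s t) :
    |d.Q A + δ * d.q (y l) - d.Q (K (g (θ l)))| ≤ ε := by
  rw [← hd.Q_pt]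
  have := (hd.Q_lip _ _).trans (h.close l hx)
  rwa [poly_int] at this

include hd in
theorem exists_str (hK : Continuous K) {r0 r0' r1' r1 A' α β B : ℝ}
    (hS : Sel (fun x => d.P (K x)) a b r0 r0' r1' r1 A' α β B) {s0 s1 : ℝ}
    (hQ : ∀ x ∈ Icc a b, s0 < d.Q (K x) ∧ d.Q (K x) < s1) :
    ∃ c : ℝ, 0 < c ∧ ∀ δ A y g s t θ ε, One K a b δ A y g s t θ ε → ε + 2 * δ < c →
      ∃ l0 l1, Str d δ A y g s t θ r0 r1 s0 s1 A' B l0 l1 := by
  have hPc : Continuous fun x => d.P (K x) := hd.P_cont.comp hK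
  have hQc : Continuous fun x => d.Q (K x) := hd.Q_cont.comp hK
  have hr : r0 < r1 := hS.l0.trans (hS.l1.trans hS.l2)
  have hev : ∀ᶠ c in 𝓝[>] (0 : ℝ), 0 < c ∧ d.P (K a) < r0 - c ∧ r1 < d.P (K B) - c ∧
      d.P (K A') < r0 - c ∧ r0 < r1 - c ∧ (∀ x ∈ Icc a A', d.P (K x) < r1 - c) ∧
      (∀ x ∈ Icc a b, s0 + c < d.Q (K x)) ∧ (∀ x ∈ Icc a b, d.Q (K x) < s1 - c) := by
    filter_upwards [self_mem_nhdsWithin, ev_lt1 hS.ea, ev_lt1 hS.eB, ev_lt1 hS.eA, ev_lt1 hr,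
      ev_lt hPc (u := a) (v := A') (r := r1)
        (fun x hx => hS.lt1 x ⟨hx.1, by linarith [hx.2, hS.Aα, hS.αβ]⟩),
      ev_gt hQc (u := a) (v := b) (r := s0) (fun x hx => (hQ x hx).1),
      ev_lt hQc (u := a) (v := b) (r := s1) (fun x hx => (hQ x hx).2)]
      with c h0 h1 h2 h3 h4 h5 h6 h7
    exact ⟨h0, h1, h2, h3, h4, h5, h6, h7⟩
  obtain ⟨c, hc0, ca, cB, cA, cr, cA', cs0, cs1⟩ := hev.exists
  refine ⟨c, hc0, ?_⟩
  intro δ A y g s t θ ε h hεδ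
  have hδ := h.hδ
  set f : ℤ → ℤ := fun l => d.p (y l) with hf
  have hst : ∀ i, |f (i + 1) - f i| ≤ 1 := steps hd h.adj
  have aA := hS.aA
  have Aα := hS.Aα
  have αβ := hS.αβ
  have βB := hS.βB
  have Bb := hS.Bb
  obtain ⟨xs, hxs⟩ := h.surj s
  obtain ⟨τ, hτ1, hτ2, hτ3, hτ4⟩ := first_hit' h.gc h.st (r := B) (by rw [h.gs]; linarith)
    (by rw [h.gt]; exact Bb)
  obtain ⟨xB, hxB⟩ := h.surj τ
  have hε : 0 ≤ ε := dist_nonneg.trans (h.close xs (by rw [hxs]; exact ⟨le_rfl, h.st.le⟩))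
  -- the two ends
  have e1 : ip f xs < d.lp δ A r0 := by
    apply lt_lp hδ
    have := One.closeP hd h (x := xs) (by rw [hxs]; exact ⟨le_rfl, h.st.le⟩)
    rw [hxs, h.gs, abs_le] at this
    linarith [this.2]
  have e2 : (d.lp δ A r1 : ℝ) + 1 < ip f xB := by
    apply lp_lt hδ
    have := One.closeP hd h (x := xB) (by rw [hxB]; exact ⟨hτ1.le, hτ2⟩)
    rw [hxB, hτ3, abs_le] at this
    linarith [this.1]
  have hxx : xs ≤ xB := by
    rw [← h.mono.le_iff_le, hxs, hxB]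
    exact hτ1.le
  have hL : d.lp δ A r0 + 1 < d.lp δ A r1 := by
    have h1 : (d.lp δ A r0 : ℝ) ≤ (r0 - d.P A) / δ := Int.floor_le _
    have h2 : (r1 - d.P A) / δ - 1 < d.lp δ A r1 := Int.sub_one_lt_floor _
    have h3 : (r0 - d.P A) / δ + 2 ≤ (r1 - d.P A) / δ := by
      rw [← le_sub_iff_add_le', ← sub_div, le_div_iff₀ hδ]
      linarith
    have : (d.lp δ A r0 : ℝ) + 1 < d.lp δ A r1 := by linarith
    exact_mod_cast this
  obtain ⟨l0, l1, k1, k2, k3, k4, k5, k6⟩ := extract hst hL hxx e1 e2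
  have hθ0 : s ≤ θ l0 := by
    rw [← hxs]
    exact h.mono.monotone k1
  have hθ1 : θ l1 ≤ τ := by
    rw [← hxB]
    exact h.mono.monotone k3
  have hmem : ∀ x : ℝ, (l0 : ℝ) ≤ x → x ≤ l1 → θ x ∈ Icc s t := fun x h1 h2 =>
    ⟨hθ0.trans (h.mono.monotone h1), (h.mono.monotone h2).trans (hθ1.trans hτ2)⟩
  have hl01 : (l0 : ℝ) ≤ l1 := by exact_mod_cast k2.le
  have hgB : ∀ x : ℝ, (l0 : ℝ) ≤ x → x ≤ l1 → g (θ x) ≤ B := by
    intro x h1 h2
    have h3 : θ x ≤ τ := (h.mono.monotone h2).trans hθ1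
    rcases h3.lt_or_eq with h4 | h4
    · exact (hτ4 _ ⟨(hmem x h1 h2).1, h4⟩).le
    · rw [h4, hτ3]
  have hg1 : A' < g (θ l1) := by
    by_contra hcon
    rw [not_lt] at hcon
    have h1 := cA' _ ⟨(h.gmem _ (hmem l1 hl01 le_rfl)).1, hcon⟩
    have h2 := One.closeP hd h (hmem l1 hl01 le_rfl)
    have h3 : r1 - δ < d.P A + δ * ip f l1 := by
      apply lp_le hδ
      rw [ip_int, k5]
    rw [abs_le] at h2
    linarith [h2.2]
  have hgA : ∀ x : ℝ, (l0 : ℝ) ≤ x → x ≤ l1 → A' ≤ g (θ x) := by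
    intro x h1 h2
    by_contra hcon
    rw [not_le] at hcon
    obtain ⟨z, hz, hzA⟩ := intermediate_value_Icc h2 (h.gc.comp h.cont).continuousOn
      (⟨hcon.le, hg1.le⟩ : A' ∈ Icc ((g ∘ θ) x) ((g ∘ θ) l1))
    have h3 := One.closeP hd h (hmem z (h1.trans hz.1) hz.2)
    have h4 : (d.lp δ A r0 : ℝ) ≤ ip f z := ip_ge (by omega) k4 k5 k6 (h1.trans hz.1) hz.2
    have h5 := lp_le hδ h4
    simp only [Function.comp_apply] at hzA
    rw [hzA, abs_le] at h3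
    linarith [h3.2]
  refine ⟨l0, l1, k2, ?_, hθ0, hθ1.trans hτ2, k4, k5, fun x h1 h2 => ⟨hgA x h1 h2, hgB x h1 h2⟩⟩
  have hm : ((l1 - l0).toNat : ℤ) = l1 - l0 := Int.toNat_of_nonneg (by omega)
  refine ⟨?_, ?_, ?_⟩
  · intro i hi
    have hi' : l0 + i ≤ l1 := by omega
    have h1 : (l0 : ℝ) ≤ ((l0 + i : ℤ) : ℝ) := by exact_mod_cast (by omega : l0 ≤ l0 + (i : ℤ))
    have h2 : ((l0 + i : ℤ) : ℝ) ≤ l1 := by exact_mod_cast hi'
    have h3 := One.closeQ hd h (hmem _ h1 h2)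
    have h4 := h.gmem _ (hmem _ h1 h2)
    have h5 := cs0 _ h4
    have h6 := cs1 _ h4
    rw [abs_le] at h3
    constructor
    · apply lq_le_int hδ
      linarith [h3.1]
    · apply int_le_lq hδ
      linarith [h3.2]
  · intro i h0 h1
    exact k6 _ (by omega) (by omega)
  · left
    rw [hm]
    refine ⟨k4, ?_⟩
    rw [show l0 + (l1 - l0) = l1 by ring]
    exact k5

end Vale.Agent.P155.TL
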